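import Vale.Agent.P177.PI.FEA
import Vale.Agent.P177.Flag.Core

/-!
P177, (FE) part B: the eigenflag filtration of `(M s / N s) ^ n`, for a graded family of pairs of
ideals `N s ≤ M s` of a commutative ring `W` and Pluecker coordinates `τ j t ∈ M (d j)` satisfying
the relations modulo `N`.
-/

namespace Vale.Agent.P177.PI

open Vale.Agent.P177.Flag

universe u v

variable {W : Type u} [CommRing W] {G : Type v} [AddCommGroup G] {n : ℕ}

/-- the data of a flag modulo `N`. -/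
structure FData (F : RFam W G) (τ : ∀ j : ℕ, (Fin j → Fin n) → W) (d : ℕ → G)
    (good : G → Prop) : Prop where
  d_zero : d 0 = 0
  mem : ∀ j t, τ j t ∈ F.M (d j)
  zero : ∀ t, τ 0 t = 1
  same : ∀ (j : ℕ) (ρ : Fin j → Fin n) (t : Fin (j + 2) → Fin n),
    wdg (τ (j + 1)) (fun i => τ (j + 1) (Fin.cons i ρ)) t ∈ F.N (d (j + 1) + d (j + 1))
  incl : ∀ (j : ℕ) (ρ : Fin j → Fin n) (t : Fin (j + 3) → Fin n),
    wdg (τ (j + 2)) (fun i => τ (j + 1) (Fin.cons i ρ)) t ∈ F.N (d (j + 2) + d (j + 1))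
  step : ∀ (j : ℕ) (ρ : Fin j → Fin n) (t : Fin (j + 1) → Fin n),
    wdg (τ j) (fun i => τ (j + 1) (Fin.cons i ρ)) t - τ j ρ * τ (j + 1) t ∈
      F.N (d j + d (j + 1))
  top : ∀ (i : Fin n) (t : Fin (n + 1) → Fin n), wdg (τ n) (Pi.single i (1 : W)) t ∈ F.N (d n)
  good_add : ∀ s j, good s → good (s + d j)
  inj : ∀ j, j ≤ n → ∀ s, good s → ∀ x ∈ F.M s, (∀ t, τ j t * x ∈ F.N (s + d j)) → x ∈ F.N s

/-- relation of an operator `X` with the scalars `c` modulo `N`. -/
def EigN (F : RFam W G) (τ : ∀ j : ℕ, (Fin j → Fin n) → W) (d : ℕ → G)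
    (X : Matrix (Fin n) (Fin n) W) (c : ℕ → W) : Prop :=
  ∀ (j : ℕ) (ρ : Fin j → Fin n) (t : Fin (j + 1) → Fin n),
    wdg (τ j) (fun i => (∑ l, X i l * τ (j + 1) (Fin.cons l ρ))
      - c j * τ (j + 1) (Fin.cons i ρ)) t ∈ F.N (d j + d (j + 1))

/-- the colon property in degree `s`. -/
def ColN (F : RFam W G) (τ : ∀ j : ℕ, (Fin j → Fin n) → W) (d : ℕ → G) (j : ℕ) (s : G) : Prop :=
  ∀ β : (Fin j → Fin n) → W, (∀ t, β t ∈ F.M s) →
    (∀ t t', τ j t' * β t - τ j t * β t' ∈ F.N (s + d j)) →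
    ∃ a ∈ F.M (s - d j), ∀ t, β t - τ j t * a ∈ F.N s

/-- the Skoda property in degree `s`. -/
def SkoN (F : RFam W G) (τ : ∀ j : ℕ, (Fin j → Fin n) → W) (d : ℕ → G) (j : ℕ) (s : G) : Prop :=
  ∀ a ∈ F.M s, ∃ g : (Fin j → Fin n) → W, (∀ ρ, g ρ ∈ F.M (s - d j)) ∧
    a - ∑ ρ, τ j ρ * g ρ ∈ F.N s

/-- the filtration. -/
def KW (F : RFam W G) (τ : ∀ j : ℕ, (Fin j → Fin n) → W) (d : ℕ → G) (j : ℕ) (s : G) :
    Submodule W (Fin n → W) where
  carrier := {v | (∀ i, v i ∈ F.M s) ∧ ∀ t, wdg (τ j) v t ∈ F.N (s + d j)}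
  zero_mem' := ⟨fun _ => zero_mem _, fun t => by rw [wdg_zero]; exact zero_mem _⟩
  add_mem' := by
    rintro v w ⟨h1, h2⟩ ⟨h3, h4⟩
    exact ⟨fun i => add_mem (h1 i) (h3 i), fun t => by
      rw [wdg_add]; exact add_mem (h2 t) (h4 t)⟩
  smul_mem' := by
    rintro c v ⟨h1, h2⟩
    exact ⟨fun i => Ideal.mul_mem_left _ _ (h1 i), fun t => by
      rw [wdg_smul]; exact Ideal.mul_mem_left _ _ (h2 t)⟩

variable {F : RFam W G} {τ : ∀ j : ℕ, (Fin j → Fin n) → W} {d : ℕ → G} {good : G → Prop}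

theorem mem_KW {j : ℕ} {s : G} {v : Fin n → W} :
    v ∈ KW F τ d j s ↔ (∀ i, v i ∈ F.M s) ∧ ∀ t, wdg (τ j) v t ∈ F.N (s + d j) := Iff.rfl

/-- the coordinates in the graded ring. -/
noncomputable def TT (F : RFam W G) (τ : ∀ j : ℕ, (Fin j → Fin n) → W) (d : ℕ → G) (j : ℕ)
    (t : Fin j → Fin n) : F.E := F.cls (d j) (τ j t)

open Classical in
/-- the family of good degrees. -/
noncomputable def MF (F : RFam W G) (good : G → Prop) (s : G) : AddSubgroup F.E :=
  if good s then F.part s else ⊥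

theorem MF_of_good {s : G} (h : good s) : MF F good s = F.part s := if_pos h

theorem wdg_cls (hmem : ∀ j t, τ j t ∈ F.M (d j)) {j : ℕ} {s : G} {v : Fin n → W}
    (hv : ∀ i, v i ∈ F.M s) (t : Fin (j + 1) → Fin n) :
    wdg (TT F τ d j) (fun i => F.cls s (v i)) t = F.cls (d j + s) (wdg (τ j) v t) := by
  unfold wdg
  rw [F.cls_sum]
  · refine Finset.sum_congr rfl fun k _ => ?_
    rw [smul_eq_mul, smul_eq_mul, mul_assoc, mul_assoc, TT, F.cls_mul (hmem _ _) (hv _),
      F.cls_pow_neg_one_mul _ (F.mul (hmem _ _) (hv _))]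
  · intro k _
    rw [smul_eq_mul, mul_assoc]
    exact Ideal.mul_mem_left _ _ (F.mul (hmem _ _) (hv _))

theorem wdg_mem_M (hmem : ∀ j t, τ j t ∈ F.M (d j)) {j : ℕ} {s : G} {v : Fin n → W}
    (hv : ∀ i, v i ∈ F.M s) (t : Fin (j + 1) → Fin n) : wdg (τ j) v t ∈ F.M (d j + s) := by
  unfold wdg
  refine Ideal.sum_mem _ fun k _ => ?_
  rw [smul_eq_mul, mul_assoc]
  exact Ideal.mul_mem_left _ _ (F.mul (hmem _ _) (hv _))

theorem FData.flagRel (h : FData F τ d good) : FlagRel (TT F τ d) where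
  zero t := by rw [TT, h.zero, h.d_zero, F.cls_one]
  same j ρ t := by
    have h1 := wdg_cls (F := F) (d := d) h.mem (j := j + 1) (s := d (j + 1))
      (v := fun i => τ (j + 1) (Fin.cons i ρ)) (fun i => h.mem _ _) t
    refine h1.trans ?_
    rw [F.cls_eq_zero_iff (wdg_mem_M h.mem (fun i => h.mem _ _) t)]
    exact h.same j ρ t
  incl j ρ t := by
    have h1 := wdg_cls (F := F) (d := d) h.mem (j := j + 2) (s := d (j + 1))
      (v := fun i => τ (j + 1) (Fin.cons i ρ)) (fun i => h.mem _ _) t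
    refine h1.trans ?_
    rw [F.cls_eq_zero_iff (wdg_mem_M h.mem (fun i => h.mem _ _) t)]
    exact h.incl j ρ t
  step j ρ t := by
    have h1 := wdg_cls (F := F) (d := d) h.mem (j := j) (s := d (j + 1))
      (v := fun i => τ (j + 1) (Fin.cons i ρ)) (fun i => h.mem _ _) t
    refine h1.trans ?_
    rw [TT, TT, F.cls_mul (h.mem _ _) (h.mem _ _),
      F.cls_eq_iff (wdg_mem_M h.mem (fun i => h.mem _ _) t) (F.mul (h.mem _ _) (h.mem _ _))]
    exact h.step j ρ t

theorem FData.graded (h : FData F τ d good) : Graded (TT F τ d) d (MF F good) where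
  d_zero := h.d_zero
  mem j t s e he := by
    classical
    by_cases hs : good s
    · rw [MF_of_good hs] at he
      rw [MF_of_good (h.good_add s j hs)]
      obtain ⟨x, hx, rfl⟩ := he
      rw [smul_eq_mul, TT, F.cls_mul (h.mem _ _) hx]
      have h2 := F.cls_mem_part (F.mul (h.mem j t) hx)
      rw [add_comm (d j) s] at h2 ⊢
      exact h2
    · rw [MF, if_neg hs, AddSubgroup.mem_bot] at he
      rw [he, smul_zero]
      exact zero_mem _
  inj j hj s e he h0 := by
    classical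
    by_cases hs : good s
    · rw [MF_of_good hs] at he
      obtain ⟨x, hx, rfl⟩ := he
      rw [F.cls_eq_zero_iff hx]
      refine h.inj j hj s hs x hx fun t => ?_
      have h1 := h0 t
      rw [smul_eq_mul, TT, F.cls_mul (h.mem _ _) hx, F.cls_eq_zero_iff (F.mul (h.mem _ _) hx),
        add_comm] at h1
      exact h1
    · rw [MF, if_neg hs, AddSubgroup.mem_bot] at he
      exact he

theorem mem_K_iff (h : FData F τ d good) {j : ℕ} {s : G} (hs : good s) {v : Fin n → W}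
    (hv : ∀ i, v i ∈ F.M s) :
    (fun i => F.cls s (v i)) ∈ K (TT F τ d) (MF F good) j s ↔ v ∈ KW F τ d j s := by
  rw [mem_K, mem_KW]
  constructor
  · rintro ⟨-, h2⟩
    refine ⟨hv, fun t => ?_⟩
    have h3 := h2 t
    rw [wdg_cls h.mem hv, F.cls_eq_zero_iff (wdg_mem_M h.mem hv t), add_comm] at h3
    exact h3
  · rintro ⟨-, h2⟩
    refine ⟨fun i => ?_, fun t => ?_⟩
    · rw [MF_of_good hs]
      exact F.cls_mem_part (hv i)
    · rw [wdg_cls h.mem hv, F.cls_eq_zero_iff (wdg_mem_M h.mem hv t), add_comm]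
      exact h2 t

theorem KW_mono (h : FData F τ d good) {j : ℕ} (hj : j < n) {s : G} (hs : good s) :
    KW F τ d j s ≤ KW F τ d (j + 1) s := by
  intro v hv
  exact (mem_K_iff h hs hv.1).1
    (K_mono h.flagRel h.graded j hj s ((mem_K_iff h hs hv.1).2 hv))

theorem KW_zero (h : FData F τ d good) {s : G} {v : Fin n → W} :
    v ∈ KW F τ d 0 s ↔ ∀ i, v i ∈ F.N s := by
  rw [mem_KW]
  have h0 : ∀ t, wdg (τ 0) v t = v (t 0) := fun t => wdg_zero_deg _ h.zero v t
  have hd : s + d 0 = s := by rw [h.d_zero, add_zero]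
  constructor
  · rintro ⟨-, h2⟩ i
    have h3 := h2 fun _ => i
    rwa [h0, hd] at h3
  · intro h2
    refine ⟨fun i => F.le s (h2 i), fun t => ?_⟩
    rw [h0, hd]
    exact h2 _

theorem KW_top (h : FData F τ d good) {s : G} {v : Fin n → W} :
    v ∈ KW F τ d n s ↔ ∀ i, v i ∈ F.M s := by
  rw [mem_KW]
  refine ⟨fun h1 => h1.1, fun hv => ⟨hv, fun t => ?_⟩⟩
  have h1 : v = ∑ i, v i • (Pi.single i (1 : W) : Fin n → W) := by
    funext k
    rw [Finset.sum_apply]
    simp [Pi.single_apply]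
  rw [h1, wdg_sum]
  refine Ideal.sum_mem _ fun i _ => ?_
  rw [wdg_smul]
  exact F.mulN (hv i) (h.top i t)

/-- coordinates. -/
theorem exists_coordN (h : FData F τ d good) {j : ℕ} (hj : j < n) {s : G} (hs : good s)
    (hcol : ColN F τ d (j + 1) (s + d j)) {v : Fin n → W} (hv : v ∈ KW F τ d (j + 1) s) :
    ∃ a ∈ F.M (s + d j - d (j + 1)), ∀ t, wdg (τ j) v t - τ (j + 1) t * a ∈ F.N (s + d j) := by
  have hmem : ∀ t, wdg (τ j) v t ∈ F.M (s + d j) := fun t => by
    have := wdg_mem_M h.mem hv.1 t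
    rwa [add_comm] at this
  refine hcol (fun t => wdg (τ j) v t) hmem fun t t' => ?_
  have h1 := prop_of_mem_K h.flagRel h.graded hj ((mem_K_iff h hs hv.1).2 hv) t t'
  rw [wdg_cls h.mem hv.1, wdg_cls h.mem hv.1, smul_eq_mul, smul_eq_mul, TT, TT,
    add_comm (d j) s, F.cls_mul (h.mem _ _) (hmem t), F.cls_mul (h.mem _ _) (hmem t'),
    F.cls_eq_iff (F.mul (h.mem _ _) (hmem t)) (F.mul (h.mem _ _) (hmem t'))] at h1
  rw [add_comm (s + d j)]
  exact h1

theorem coordN_unique (h : FData F τ d good) {j : ℕ} (hj : j ≤ n) {s : G} (hs : good s) {a b : W}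
    (ha : a ∈ F.M s) (hb : b ∈ F.M s) (hab : ∀ t, τ j t * a - τ j t * b ∈ F.N (s + d j)) :
    a - b ∈ F.N s := by
  refine h.inj j hj s hs _ (sub_mem ha hb) fun t => ?_
  rw [mul_sub]
  exact hab t

/-- surjectivity. -/
theorem exists_of_coordN (h : FData F τ d good) {j : ℕ} {s : G}
    (hsko : SkoN F τ d j (s + d j - d (j + 1))) {a : W} (ha : a ∈ F.M (s + d j - d (j + 1))) :
    ∃ v ∈ KW F τ d (j + 1) s, ∀ t, wdg (τ j) v t - τ (j + 1) t * a ∈ F.N (s + d j) := by
  obtain ⟨g, hg, hag⟩ := hsko a ha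
  have hg' : ∀ ρ, g ρ ∈ F.M (s - d (j + 1)) := by
    intro ρ
    have := hg ρ
    rwa [show s + d j - d (j + 1) - d j = s - d (j + 1) by abel] at this
  have hdeg : s - d (j + 1) + d (j + 1) = s := sub_add_cancel _ _
  refine ⟨∑ ρ, fun i => τ (j + 1) (Fin.cons i ρ) • g ρ, ⟨fun i => ?_, fun t => ?_⟩, fun t => ?_⟩
  · rw [Finset.sum_apply]
    refine Ideal.sum_mem _ fun ρ _ => ?_
    have h1 := F.mul (hg' ρ) (h.mem (j + 1) (Fin.cons i ρ))
    rw [hdeg] at h1
    rw [smul_eq_mul, mul_comm]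
    exact h1
  · rw [wdg_sum]
    refine Ideal.sum_mem _ fun ρ _ => ?_
    rw [wdg_smul_const, smul_eq_mul, mul_comm]
    have h1 := F.mulN (hg' ρ) (h.same j ρ t)
    rw [← add_assoc, hdeg] at h1
    exact h1
  · rw [wdg_sum]
    have h1 : ∑ ρ, wdg (τ j) (fun i => τ (j + 1) (Fin.cons i ρ) • g ρ) t - τ (j + 1) t * a =
        ∑ ρ, g ρ * (wdg (τ j) (fun i => τ (j + 1) (Fin.cons i ρ)) t - τ j ρ * τ (j + 1) t) -
          τ (j + 1) t * (a - ∑ ρ, τ j ρ * g ρ) := by
      rw [mul_sub, Finset.mul_sum]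
      have h2 : ∀ ρ, g ρ * (wdg (τ j) (fun i => τ (j + 1) (Fin.cons i ρ)) t -
          τ j ρ * τ (j + 1) t) = wdg (τ j) (fun i => τ (j + 1) (Fin.cons i ρ) • g ρ) t -
            τ (j + 1) t * (τ j ρ * g ρ) := by
        intro ρ
        rw [wdg_smul_const, smul_eq_mul]
        ring
      rw [Finset.sum_congr rfl fun ρ _ => h2 ρ, Finset.sum_sub_distrib]
      ring
    rw [h1]
    refine sub_mem (Ideal.sum_mem _ fun ρ _ => ?_) ?_
    · have h2 := F.mulN (hg' ρ) (h.step j ρ t)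
      rw [add_comm (d j), ← add_assoc, hdeg] at h2
      exact h2
    · have h2 := F.mulN (h.mem (j + 1) t) hag
      rw [show d (j + 1) + (s + d j - d (j + 1)) = s + d j by abel] at h2
      exact h2

/-- the operator `X - c j` maps `K (j + 1)` to `K j`. -/
theorem act_sub_memN (h : FData F τ d good) {X : Matrix (Fin n) (Fin n) W} {c : ℕ → W}
    (hX : EigN F τ d X c) {j : ℕ} (hj : j < n) {s : G} (hs : good s) {v : Fin n → W}
    (hv : v ∈ KW F τ d (j + 1) s) : act X v - c j • v ∈ KW F τ d j s := by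
  let XE : Matrix (Fin n) (Fin n) F.E := fun i l => F.cls 0 (X i l)
  let cE : ℕ → F.E := fun j => F.cls 0 (c j)
  have hcl : ∀ {s : G} (w x : W), x ∈ F.M s → F.cls 0 w * F.cls s x = F.cls s (w * x) := by
    intro s w x hx
    rw [F.cls_mul (F.mem_zero w) hx, zero_add]
  have hXE : EigRel (TT F τ d) XE cE := by
    intro j ρ t
    have hv' : ∀ i, (∑ l, X i l * τ (j + 1) (Fin.cons l ρ)) - c j * τ (j + 1) (Fin.cons i ρ) ∈
        F.M (d (j + 1)) := fun i =>
      sub_mem (Ideal.sum_mem _ fun l _ => Ideal.mul_mem_left _ _ (h.mem _ _))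
        (Ideal.mul_mem_left _ _ (h.mem _ _))
    have h1 := wdg_cls (F := F) (d := d) h.mem (j := j) (s := d (j + 1)) hv' t
    rw [(F.cls_eq_zero_iff (wdg_mem_M h.mem hv' t)).2 (hX j ρ t)] at h1
    refine Eq.trans ?_ h1
    congr 1
    funext i
    rw [F.cls_sub (Ideal.sum_mem _ fun l _ => Ideal.mul_mem_left _ _ (h.mem _ _))
        (Ideal.mul_mem_left _ _ (h.mem _ _)),
      F.cls_sum _ _ fun l _ => Ideal.mul_mem_left _ _ (h.mem _ _)]
    congr 1
    · refine Finset.sum_congr rfl fun l _ => ?_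
      exact hcl _ _ (h.mem _ _)
    · exact hcl _ _ (h.mem _ _)
  have hpart : ∀ (w : W) (s' : G), ∀ e ∈ MF F good s', F.cls 0 w • e ∈ MF F good s' := by
    classical
    intro w s' e he
    by_cases hs' : good s'
    · rw [MF_of_good hs'] at he ⊢
      obtain ⟨x, hx, rfl⟩ := he
      rw [smul_eq_mul, hcl _ _ hx]
      exact F.cls_mem_part (Ideal.mul_mem_left _ _ hx)
    · rw [MF, if_neg hs', AddSubgroup.mem_bot] at he
      rw [he, smul_zero]
      exact zero_mem _
  have h2 := eig_mem h.graded hXE hj (fun i l e he => hpart _ _ e he)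
    (fun e he => hpart _ _ e he) ((mem_K_iff h hs hv.1).2 hv)
  have hmem : ∀ i, (act X v - c j • v) i ∈ F.M s := fun i =>
    sub_mem (Ideal.sum_mem _ fun l _ => Ideal.mul_mem_left _ _ (hv.1 l))
      (Ideal.mul_mem_left _ _ (hv.1 i))
  rw [← mem_K_iff h hs hmem]
  have h3 : (fun i => F.cls s ((act X v - c j • v) i)) =
      act XE (fun i => F.cls s (v i)) - cE j • fun i => F.cls s (v i) := by
    funext i
    change F.cls s ((∑ l, X i l * v l) - c j * v i) = (∑ l, F.cls 0 (X i l) * F.cls s (v l)) -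
      F.cls 0 (c j) * F.cls s (v i)
    rw [F.cls_sub (Ideal.sum_mem _ fun l _ => Ideal.mul_mem_left _ _ (hv.1 l))
      (Ideal.mul_mem_left _ _ (hv.1 i)), F.cls_sum _ _ fun l _ => Ideal.mul_mem_left _ _ (hv.1 l),
      hcl _ _ (hv.1 i)]
    congr 1
    refine Finset.sum_congr rfl fun l _ => ?_
    rw [hcl _ _ (hv.1 l)]
  rw [h3]
  exact h2

theorem act_memN (h : FData F τ d good) {X : Matrix (Fin n) (Fin n) W} {c : ℕ → W}
    (hX : EigN F τ d X c) {j : ℕ} (hj : j < n) {s : G} (hs : good s) {v : Fin n → W}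
    (hv : v ∈ KW F τ d (j + 1) s) : act X v ∈ KW F τ d (j + 1) s := by
  have h1 := KW_mono h hj hs (act_sub_memN h hX hj hs hv)
  have h2 := add_mem h1 (Submodule.smul_mem _ (c j) hv)
  rwa [sub_add_cancel] at h2

/-- the pieces `M s / N s`. -/
abbrev Gr (F : RFam W G) (s : G) : Type _ := (F.M s) ⧸ (Submodule.comap (F.M s).subtype (F.N s))

theorem Gr.mk_eq_iff {s : G} (x y : F.M s) :
    (Submodule.Quotient.mk x : Gr F s) = Submodule.Quotient.mk y ↔ (x : W) - y ∈ F.N s := by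
  rw [Submodule.Quotient.eq]
  rfl

section feHom

variable (h : FData F τ d good) {j : ℕ} (hj : j < n) {s : G} (hs : good s)
  (hs' : good (s + d j - d (j + 1))) (hcol : ColN F τ d (j + 1) (s + d j))

include h hj hs hs' hcol in
theorem coordN_exists_unique (v : KW F τ d (j + 1) s) :
    ∃ q : Gr F (s + d j - d (j + 1)), ∀ a : F.M (s + d j - d (j + 1)),
      Submodule.Quotient.mk a = q ↔
        ∀ t, wdg (τ j) (v : Fin n → W) t - τ (j + 1) t * a ∈ F.N (s + d j) := by
  obtain ⟨a, ha, hva⟩ := exists_coordN h hj hs hcol v.2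
  refine ⟨Submodule.Quotient.mk ⟨a, ha⟩, fun b => ?_⟩
  rw [Gr.mk_eq_iff]
  constructor
  · intro hb t
    have h1 := F.mulN (h.mem (j + 1) t) hb
    rw [show d (j + 1) + (s + d j - d (j + 1)) = s + d j by abel] at h1
    have h2 : wdg (τ j) (v : Fin n → W) t - τ (j + 1) t * b =
        (wdg (τ j) (v : Fin n → W) t - τ (j + 1) t * a) - τ (j + 1) t * (b - a) := by ring
    rw [h2]
    exact sub_mem (hva t) h1
  · intro hb
    refine coordN_unique h hj hs' b.2 ha fun t => ?_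
    have h2 : τ (j + 1) t * b - τ (j + 1) t * a =
        (wdg (τ j) (v : Fin n → W) t - τ (j + 1) t * a) -
          (wdg (τ j) (v : Fin n → W) t - τ (j + 1) t * b) := by ring
    rw [h2, show s + d j - d (j + 1) + d (j + 1) = s + d j by abel]
    exact sub_mem (hva t) (hb t)

/-- the coordinate map of the `(j + 1)`-st piece. -/
noncomputable def feHom : KW F τ d (j + 1) s →ₗ[W] Gr F (s + d j - d (j + 1)) where
  toFun v := (coordN_exists_unique h hj hs hs' hcol v).choose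
  map_add' v w := by
    obtain ⟨a, ha⟩ := Submodule.Quotient.mk_surjective _
      (coordN_exists_unique h hj hs hs' hcol v).choose
    obtain ⟨b, hb⟩ := Submodule.Quotient.mk_surjective _
      (coordN_exists_unique h hj hs hs' hcol w).choose
    have h1 := ((coordN_exists_unique h hj hs hs' hcol v).choose_spec a).1 ha
    have h2 := ((coordN_exists_unique h hj hs hs' hcol w).choose_spec b).1 hb
    rw [← ha, ← hb, ← Submodule.Quotient.mk_add]
    symm
    refine ((coordN_exists_unique h hj hs hs' hcol (v + w)).choose_spec (a + b)).2 fun t => ?_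
    have h3 : wdg (τ j) ((v + w : KW F τ d (j + 1) s) : Fin n → W) t -
        τ (j + 1) t * ((a + b : F.M (s + d j - d (j + 1))) : W) =
        (wdg (τ j) (v : Fin n → W) t - τ (j + 1) t * a) +
          (wdg (τ j) (w : Fin n → W) t - τ (j + 1) t * b) := by
      rw [Submodule.coe_add, Submodule.coe_add, wdg_add]; ring
    rw [h3]
    exact add_mem (h1 t) (h2 t)
  map_smul' c v := by
    obtain ⟨a, ha⟩ := Submodule.Quotient.mk_surjective _
      (coordN_exists_unique h hj hs hs' hcol v).choose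
    have h1 := ((coordN_exists_unique h hj hs hs' hcol v).choose_spec a).1 ha
    rw [← ha, RingHom.id_apply, ← Submodule.Quotient.mk_smul]
    symm
    refine ((coordN_exists_unique h hj hs hs' hcol (c • v)).choose_spec (c • a)).2 fun t => ?_
    have h3 : wdg (τ j) ((c • v : KW F τ d (j + 1) s) : Fin n → W) t -
        τ (j + 1) t * ((c • a : F.M (s + d j - d (j + 1))) : W) =
        c * (wdg (τ j) (v : Fin n → W) t - τ (j + 1) t * a) := by
      rw [Submodule.coe_smul, Submodule.coe_smul, wdg_smul, smul_eq_mul, smul_eq_mul]; ring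
    rw [h3]
    exact Ideal.mul_mem_left _ _ (h1 t)

theorem feHom_eq_mk_iff (v : KW F τ d (j + 1) s) (a : F.M (s + d j - d (j + 1))) :
    feHom h hj hs hs' hcol v = Submodule.Quotient.mk a ↔
      ∀ t, wdg (τ j) (v : Fin n → W) t - τ (j + 1) t * a ∈ F.N (s + d j) := by
  rw [eq_comm]
  exact (coordN_exists_unique h hj hs hs' hcol v).choose_spec a

theorem feHom_eq_zero_iff (v : KW F τ d (j + 1) s) :
    feHom h hj hs hs' hcol v = 0 ↔ (v : Fin n → W) ∈ KW F τ d j s := by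
  have h1 := feHom_eq_mk_iff h hj hs hs' hcol v 0
  rw [Submodule.Quotient.mk_zero] at h1
  rw [h1, mem_KW]
  constructor
  · intro h2
    refine ⟨v.2.1, fun t => ?_⟩
    have h3 := h2 t
    rwa [Submodule.coe_zero, mul_zero, sub_zero] at h3
  · intro h2 t
    rw [Submodule.coe_zero, mul_zero, sub_zero]
    exact h2.2 t

theorem feHom_surjective (hsko : SkoN F τ d j (s + d j - d (j + 1))) :
    Function.Surjective (feHom h hj hs hs' hcol) := by
  intro q
  obtain ⟨a, rfl⟩ := Submodule.Quotient.mk_surjective _ q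
  obtain ⟨v, hv, hva⟩ := exists_of_coordN h hsko a.2
  exact ⟨⟨v, hv⟩, (feHom_eq_mk_iff h hj hs hs' hcol ⟨v, hv⟩ a).2 hva⟩

/-- an operator `X` with `EigN` acts on the piece by the scalar `c j`. -/
theorem feHom_act {X : Matrix (Fin n) (Fin n) W} {c : ℕ → W} (hX : EigN F τ d X c)
    (v : KW F τ d (j + 1) s) :
    feHom h hj hs hs' hcol ⟨act X v, act_memN h hX hj hs v.2⟩ =
      c j • feHom h hj hs hs' hcol v := by
  rw [← map_smul, ← sub_eq_zero, ← map_sub, feHom_eq_zero_iff]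
  exact act_sub_memN h hX hj hs v.2

end feHom

end Vale.Agent.P177.PI
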