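import Vale.Agent.P177.AR.Abs
import Vale.Agent.P177.PI.FEB

/-!
P177, (FLIM): the multigraded family `M s = WI (perfHull (∏ i, I i ^ s i))`,
`N s = (p - [t], p ^ N) M s`, `s : Fin r → ℤ`, of ideals of `W(C)`, and the properties `inj`, `ColN`,
`SkoN` of `FEB` for coordinates `τ j t = ± [a t]` with `I i₀ = (a t)_t`.
-/

namespace Vale.Agent.P177.PI

open Vale.Agent.P202.Mix Vale.Agent.P177.Perf WittVector
open scoped Pointwise

universe u

section family

variable {C : Type u} [CommRing C] {r : ℕ}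

/-- product of powers of the ideals `I i`. -/
def PPr (I : Fin r → Ideal C) (s : Fin r → ℤ) : Ideal C := ∏ i, I i ^ (s i).toNat

theorem PPr_mul_le (I : Fin r → Ideal C) (s s' : Fin r → ℤ) :
    PPr I s * PPr I s' ≤ PPr I (s + s') := by
  unfold PPr
  rw [← Finset.prod_mul_distrib]
  refine Finset.prod_le_prod' fun i _ => ?_
  rw [← pow_add]
  refine Ideal.pow_le_pow_right ?_
  rw [Pi.add_apply]
  omega

theorem PPr_zero (I : Fin r → Ideal C) : PPr I 0 = ⊤ := by
  unfold PPr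
  simp

theorem PPr_single (I : Fin r → Ideal C) (i : Fin r) : PPr I (Pi.single i 1) = I i := by
  unfold PPr
  rw [Finset.prod_eq_single i]
  · simp
  · intro k _ hk
    rw [Pi.single_eq_of_ne hk]
    simp
  · intro h
    exact absurd (Finset.mem_univ i) h

theorem PPr_eq (I : Fin r → Ideal C) (s : Fin r → ℤ) (i : Fin r) :
    PPr I s = (∏ k ∈ Finset.univ.erase i, I k ^ (s k).toNat) * I i ^ (s i).toNat := by
  unfold PPr
  rw [← Finset.mul_prod_erase Finset.univ (fun k => I k ^ (s k).toNat) (Finset.mem_univ i),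
    mul_comm]

end family

section

variable (p : ℕ) [hp : Fact p.Prime] {C : Type u} [CommRing C] [CharP C p] {r : ℕ}

/-- the perfect ideals. -/
def JJ (I : Fin r → Ideal C) (s : Fin r → ℤ) : Ideal C := perfHull p (PPr I s)

theorem isPerf_JJ (I : Fin r → Ideal C) (s : Fin r → ℤ) : IsPerf p (JJ p I s) :=
  isPerf_perfHull p _

theorem JJ_mul_mem (I : Fin r → Ideal C) {s s' : Fin r → ℤ} {x y : C} (hx : x ∈ JJ p I s)
    (hy : y ∈ JJ p I s') : x * y ∈ JJ p I (s + s') :=
  perfHull_mono (PPr_mul_le I s s') (mul_mem_perfHull hx hy)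

theorem JJ_zero (I : Fin r → Ideal C) : JJ p I 0 = ⊤ := by
  unfold JJ
  rw [PPr_zero, perfHull_top]

theorem mem_JJ_single (I : Fin r → Ideal C) (i : Fin r) {x : C} (hx : x ∈ I i) :
    x ∈ JJ p I (Pi.single i 1) := by
  unfold JJ
  rw [PPr_single]
  exact le_perfHull hx

theorem JJ_eq_JF (I : Fin r → Ideal C) {m : ℕ} (a : Fin m → C) (i : Fin r)
    (hI : I i = Ideal.span (Set.range a)) (s : Fin r → ℤ) :
    JJ p I s = JF p (∏ k ∈ Finset.univ.erase i, I k ^ (s k).toNat) a (s i).toNat := by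
  unfold JJ JF
  rw [PPr_eq I s i, hI]

theorem JJ_anti (I : Fin r → Ideal C) {s s' : Fin r → ℤ} (h : s ≤ s') :
    JJ p I s' ≤ JJ p I s := by
  refine perfHull_mono ?_
  unfold PPr
  refine Finset.prod_le_prod' fun i _ => Ideal.pow_le_pow_right ?_
  have h1 : s i ≤ s' i := h i
  omega

end

section

variable (p : ℕ) [hp : Fact p.Prime] {C : Type u} [CommRing C] [CharP C p] [PerfectRing C p]
  {r : ℕ}

omit [CharP C p] [PerfectRing C p] in
theorem TI_mul_mem {J J' J'' : Ideal C} (h : ∀ a ∈ J, ∀ b ∈ J', a * b ∈ J'')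
    {x y : WittVector p C} (hx : x ∈ TI p J) (hy : y ∈ TI p J') : x * y ∈ TI p J'' := by
  have h1 : TI p J * TI p J' ≤ TI p J'' := by
    unfold TI
    rw [Ideal.span_mul_span', Ideal.span_le]
    rintro _ ⟨_, ⟨a, ha, rfl⟩, _, ⟨b, hb, rfl⟩, rfl⟩
    change teichmuller p a * teichmuller p b ∈ _
    rw [← map_mul]
    exact te_mem_TI p (h a ha b hb)
  exact h1 (Ideal.mul_mem_mul hx hy)

omit [CharP C p] [PerfectRing C p] in
theorem WI_mul_mem {J J' J'' : Ideal C} (h : ∀ a ∈ J, ∀ b ∈ J', a * b ∈ J'')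
    {x y : WittVector p C} (hx : x ∈ WI p J) (hy : y ∈ WI p J') : x * y ∈ WI p J'' := by
  rw [mem_WI] at hx hy ⊢
  intro N
  obtain ⟨a, ha, z, hz⟩ := (mem_TN_iff p).1 (hx N)
  obtain ⟨b, hb, w, hw⟩ := (mem_TN_iff p).1 (hy N)
  refine (mem_TN_iff p).2 ⟨a * b, TI_mul_mem p h ha hb, a * w + z * b + p ^ N * (z * w), ?_⟩
  rw [hz, hw]
  ring

/-- the graded family. -/
noncomputable def famJ (I : Fin r → Ideal C) (t : C) (N : ℕ) :
    RFam (WittVector p C) (Fin r → ℤ) where
  M s := WI p (JJ p I s)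
  N s := XI p t N * WI p (JJ p I s)
  le s := Ideal.mul_le_right
  one := by
    rw [JJ_zero, ← map_one (teichmuller p (R := C))]
    exact te_mem_WI p Submodule.mem_top
  mul hx hy := WI_mul_mem p (fun _ ha _ hb => JJ_mul_mem p I ha hb) hx hy
  mulN {s s' x y} hx hy := by
    have h1 : WI p (JJ p I s) * (XI p t N * WI p (JJ p I s')) ≤
        XI p t N * WI p (JJ p I (s + s')) := by
      rw [mul_left_comm]
      refine Ideal.mul_mono_right ?_
      rw [Ideal.mul_le]
      intro a ha b hb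
      exact WI_mul_mem p (fun _ ha _ hb => JJ_mul_mem p I ha hb) ha hb
    exact h1 (Ideal.mul_mem_mul hx hy)

omit [PerfectRing C p] in
theorem famJ_M (I : Fin r → Ideal C) (t : C) (N : ℕ) (s : Fin r → ℤ) :
    (famJ p I t N).M s = WI p (JJ p I s) := rfl

omit [PerfectRing C p] in
theorem famJ_N (I : Fin r → Ideal C) (t : C) (N : ℕ) (s : Fin r → ℤ) :
    (famJ p I t N).N s = XI p t N * WI p (JJ p I s) := rfl

theorem fg_prod_pow {r : ℕ} {I : Fin r → Ideal C} (hI : ∀ i, (I i).FG) (S : Finset (Fin r))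
    (f : Fin r → ℕ) : (∏ k ∈ S, I k ^ f k).FG := by
  classical
  induction S using Finset.induction_on with
  | empty => rw [Finset.prod_empty, Ideal.one_eq_top]; exact Ideal.fg_top C
  | insert a S ha ih =>
    rw [Finset.prod_insert ha]
    exact Submodule.FG.mul (Submodule.FG.pow (hI a) _) ih

/-- the cofactor of `I i` in the product in degree `s`. -/
def cof (I : Fin r → Ideal C) (i : Fin r) (s : Fin r → ℤ) : Ideal C :=
  ∏ k ∈ Finset.univ.erase i, I k ^ (s k).toNat

omit [PerfectRing C p] in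
theorem JJ_update (I : Fin r → Ideal C) {m : ℕ} (a : Fin m → C) (i : Fin r)
    (hI : I i = Ideal.span (Set.range a)) (s : Fin r → ℤ) (z : ℤ) :
    JJ p I (Function.update s i z) = JF p (cof I i s) a z.toNat := by
  rw [JJ_eq_JF p I a i hI, Function.update_self]
  congr 1
  unfold cof
  refine Finset.prod_congr rfl fun k hk => ?_
  rw [Function.update_of_ne (Finset.ne_of_mem_erase hk)]

theorem add_single_eq (s : Fin r → ℤ) (i : Fin r) (z : ℤ) :
    s + Pi.single i z = Function.update s i (s i + z) := by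
  funext k
  by_cases h : k = i
  · subst h; simp
  · rw [Pi.add_apply, Pi.single_eq_of_ne h, Function.update_of_ne h, add_zero]

theorem sub_single_eq (s : Fin r → ℤ) (i : Fin r) (z : ℤ) :
    s - Pi.single i z = Function.update s i (s i - z) := by
  funext k
  by_cases h : k = i
  · subst h; simp
  · rw [Pi.sub_apply, Pi.single_eq_of_ne h, Function.update_of_ne h, sub_zero]

section flim

variable {I : Fin r → Ideal C} (hI : ∀ i, (I i).FG) {t : C} (ht : t ∈ nonZeroDivisors C) (N : ℕ)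
  {κ : Type} [Fintype κ] (a : κ → C) (u : κ → WittVector p C) (hu : ∀ k, u k * u k = 1)
  (i : Fin r) (hIi : I i = Ideal.span (Set.range a))

include hI ht hu hIi

theorem famJ_inj (s : Fin r → ℤ) (hs : 1 ≤ s i) {x : WittVector p C}
    (hx : x ∈ (famJ p I t N).M s)
    (h : ∀ k, (u k * teichmuller p (a k)) * x ∈ (famJ p I t N).N (s + Pi.single i 1)) :
    x ∈ (famJ p I t N).N s := by
  let e := Fintype.equivFin κ
  have hr : I i = Ideal.span (Set.range (a ∘ e.symm)) := by
    rw [hIi, e.symm.surjective.range_comp]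
  have h0 : JJ p I s = JF p (cof I i s) (a ∘ e.symm) (s i).toNat := by
    have := JJ_update p I (a ∘ e.symm) i hr s (s i)
    rwa [Function.update_eq_self] at this
  have h1 : JJ p I (s + Pi.single i 1) = JF p (cof I i s) (a ∘ e.symm) ((s i).toNat + 1) := by
    rw [add_single_eq, JJ_update p I (a ∘ e.symm) i hr]
    congr 1
    omega
  rw [famJ_M, h0] at hx
  rw [famJ_N, h0]
  refine kosW_inj_sign p (cof I i s) (fg_prod_pow hI _ _) (a ∘ e.symm) ht N (u ∘ e.symm)
    (fun l => hu _) (s i).toNat (by omega) hx fun l => ?_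
  have h2 := h (e.symm l)
  rw [famJ_N, h1] at h2
  exact h2

theorem famJ_col (s : Fin r → ℤ) (hs : 2 ≤ s i) (β : κ → WittVector p C)
    (hβ : ∀ k, β k ∈ (famJ p I t N).M s)
    (h : ∀ k l, (u l * teichmuller p (a l)) * β k - (u k * teichmuller p (a k)) * β l ∈
      (famJ p I t N).N (s + Pi.single i 1)) :
    ∃ x ∈ (famJ p I t N).M (s - Pi.single i 1), ∀ k,
      β k - (u k * teichmuller p (a k)) * x ∈ (famJ p I t N).N s := by
  let e := Fintype.equivFin κ
  have hr : I i = Ideal.span (Set.range (a ∘ e.symm)) := by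
    rw [hIi, e.symm.surjective.range_comp]
  obtain ⟨c, hc⟩ : ∃ c : ℕ, s i = c + 1 := ⟨(s i).toNat - 1, by omega⟩
  have h0 : JJ p I s = JF p (cof I i s) (a ∘ e.symm) (c + 1) := by
    have := JJ_update p I (a ∘ e.symm) i hr s (s i)
    rw [Function.update_eq_self] at this
    rw [this]
    congr 1
    omega
  have h1 : JJ p I (s + Pi.single i 1) = JF p (cof I i s) (a ∘ e.symm) (c + 2) := by
    rw [add_single_eq, JJ_update p I (a ∘ e.symm) i hr]
    congr 1
    omega
  have h2 : JJ p I (s - Pi.single i 1) = JF p (cof I i s) (a ∘ e.symm) c := by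
    rw [sub_single_eq, JJ_update p I (a ∘ e.symm) i hr]
    congr 1
    omega
  obtain ⟨x, hx, hxx⟩ := kosW_col_sign p (cof I i s) (fg_prod_pow hI _ _) (a ∘ e.symm) ht N
    (u ∘ e.symm) (fun l => hu _) c (by omega) (β ∘ e.symm) (fun l => by
      have := hβ (e.symm l)
      rw [famJ_M, h0] at this
      exact this) (fun k l => by
      have := h (e.symm l) (e.symm k)
      rw [famJ_N, h1] at this
      exact this)
  refine ⟨x, by rw [famJ_M, h2]; exact hx, fun k => ?_⟩
  have := hxx (e k)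
  rw [famJ_N, h0]
  simp only [Function.comp_apply, Equiv.symm_apply_apply] at this
  exact this

theorem famJ_sko (s : Fin r → ℤ) (hs : (Fintype.card κ : ℤ) < s i) {x : WittVector p C}
    (hx : x ∈ (famJ p I t N).M s) :
    ∃ w : κ → WittVector p C, (∀ k, w k ∈ (famJ p I t N).M (s - Pi.single i 1)) ∧
      x - ∑ k, (u k * teichmuller p (a k)) * w k ∈ (famJ p I t N).N s := by
  let e := Fintype.equivFin κ
  have hr : I i = Ideal.span (Set.range (a ∘ e.symm)) := by
    rw [hIi, e.symm.surjective.range_comp]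
  have h0 : JJ p I s = JF p (cof I i s) (a ∘ e.symm) (s i).toNat := by
    have := JJ_update p I (a ∘ e.symm) i hr s (s i)
    rwa [Function.update_eq_self] at this
  have h2 : JJ p I (s - Pi.single i 1) = JF p (cof I i s) (a ∘ e.symm) ((s i).toNat - 1) := by
    rw [sub_single_eq, JJ_update p I (a ∘ e.symm) i hr]
    congr 1
    omega
  rw [famJ_M, h0] at hx
  obtain ⟨w, hw, hww⟩ := kosW_sko_sign p (cof I i s) (fg_prod_pow hI _ _) (a ∘ e.symm) ht N
    (u ∘ e.symm) (fun l => hu _) (s i).toNat (by omega) hx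
  refine ⟨w ∘ e, fun k => by rw [famJ_M, h2]; exact hw _, ?_⟩
  rw [famJ_N, h0]
  have h3 : ∑ k, (u k * teichmuller p (a k)) * (w ∘ e) k =
      ∑ l, ((u ∘ e.symm) l * teichmuller p ((a ∘ e.symm) l)) * w l := by
    refine Fintype.sum_equiv e _ _ fun k => ?_
    simp
  rw [h3]
  exact hww

end flim

section flag

variable {I : Fin r → Ideal C} (hI : ∀ i, (I i).FG) {t : C} (ht : t ∈ nonZeroDivisors C) (N : ℕ)
  {n : ℕ} {τ : ∀ j : ℕ, (Fin j → Fin n) → WittVector p C} {d : ℕ → Fin r → ℤ}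

/-- the coordinates `τ j t = ± [a t]`, with `(a t)_t = I i`, in degree `d j = e_i`. -/
structure TauAt (I : Fin r → Ideal C) (τ : ∀ j : ℕ, (Fin j → Fin n) → WittVector p C)
    (d : ℕ → Fin r → ℤ) (j : ℕ) (i : Fin r) : Prop where
  rep : ∃ (a : (Fin j → Fin n) → C) (u : (Fin j → Fin n) → WittVector p C),
    (∀ t, u t * u t = 1) ∧ (∀ t, τ j t = u t * teichmuller p (a t)) ∧
      I i = Ideal.span (Set.range a)
  deg : d j = Pi.single i 1

theorem TauAt.mem {j : ℕ} {i : Fin r} (h : TauAt p I τ d j i) (t' : Fin j → Fin n) :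
    τ j t' ∈ (famJ p I t N).M (d j) := by
  obtain ⟨a, u, hu, hτ, hIi⟩ := h.rep
  rw [hτ, h.deg, famJ_M]
  refine Ideal.mul_mem_left _ _ (te_mem_WI p (mem_JJ_single p I i ?_))
  rw [hIi]
  exact Ideal.subset_span ⟨t', rfl⟩

include hI ht

theorem TauAt.inj {j : ℕ} {i : Fin r} (h : TauAt p I τ d j i) (s : Fin r → ℤ) (hs : 1 ≤ s i) :
    ∀ x ∈ (famJ p I t N).M s, (∀ t', τ j t' * x ∈ (famJ p I t N).N (s + d j)) →
      x ∈ (famJ p I t N).N s := by
  obtain ⟨a, u, hu, hτ, hIi⟩ := h.rep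
  intro x hx hxt
  refine famJ_inj p hI ht N a u hu i hIi s hs hx fun k => ?_
  rw [← hτ, ← h.deg]
  exact hxt k

theorem TauAt.colN {j : ℕ} {i : Fin r} (h : TauAt p I τ d j i) (s : Fin r → ℤ) (hs : 2 ≤ s i) :
    ColN (famJ p I t N) τ d j s := by
  obtain ⟨a, u, hu, hτ, hIi⟩ := h.rep
  intro β hβ hββ
  obtain ⟨x, hx, hxx⟩ := famJ_col p hI ht N a u hu i hIi s hs β hβ fun k l => by
    rw [← hτ, ← hτ, ← h.deg]
    exact hββ k l
  refine ⟨x, by rw [h.deg]; exact hx, fun k => ?_⟩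
  rw [hτ]
  exact hxx k

theorem TauAt.skoN {j : ℕ} {i : Fin r} (h : TauAt p I τ d j i) (s : Fin r → ℤ)
    (hs : ((n ^ j : ℕ) : ℤ) < s i) : SkoN (famJ p I t N) τ d j s := by
  obtain ⟨a, u, hu, hτ, hIi⟩ := h.rep
  intro x hx
  obtain ⟨w, hw, hxw⟩ := famJ_sko p hI ht N a u hu i hIi s (by
    rw [Fintype.card_fun, Fintype.card_fin, Fintype.card_fin]
    exact hs) hx
  refine ⟨w, fun ρ => by rw [h.deg]; exact hw ρ, ?_⟩
  have h3 : ∑ ρ, τ j ρ * w ρ = ∑ k, (u k * teichmuller p (a k)) * w k :=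
    Finset.sum_congr rfl fun ρ _ => by rw [hτ]
  rw [h3]
  exact hxw

omit hI ht

omit [CharP C p] [PerfectRing C p] in
theorem inj_zero (h0 : ∀ t', τ 0 t' = 1) (hd : d 0 = 0) (F : RFam (WittVector p C) (Fin r → ℤ))
    (s : Fin r → ℤ) : ∀ x ∈ F.M s, (∀ t', τ 0 t' * x ∈ F.N (s + d 0)) → x ∈ F.N s := by
  intro x _ hx
  have h1 := hx fun k => k.elim0
  rwa [h0, one_mul, hd, add_zero] at h1

omit [CharP C p] [PerfectRing C p] in
theorem skoN_zero (h0 : ∀ t', τ 0 t' = 1) (hd : d 0 = 0) (F : RFam (WittVector p C) (Fin r → ℤ))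
    (s : Fin r → ℤ) : SkoN F τ d 0 s := by
  intro x hx
  refine ⟨fun _ => x, fun ρ => by rwa [hd, sub_zero], ?_⟩
  have h1 : ∑ ρ : Fin 0 → Fin n, τ 0 ρ * x = x := by
    rw [Finset.sum_congr rfl fun ρ _ => by rw [h0, one_mul]]
    simp
  rw [h1, sub_self]
  exact zero_mem _

end flag

end

end Vale.Agent.P177.PI
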