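import Vale.Agent.P177.AR.Abs
import Vale.Agent.P177.PI.FEB

/-!
P177: the product ring `∏ C_e`.  Witt vectors, perfect ideals `∏ J_e`, the ideals
`(p - [t], p ^ N) W(∏ J_e)`, graded families: everything is checked componentwise.
-/

namespace Vale.Agent.P177.PI

open WittVector

universe u v w

section

variable (p : ℕ) [hp : Fact p.Prime] {ι : Type v} (C : ι → Type w) [∀ e, CommRing (C e)]

omit hp in
theorem charP_pi [Nonempty ι] [∀ e, CharP (C e) p] : CharP (∀ e, C e) p := by
  refine ⟨fun x => ?_⟩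
  obtain ⟨i⟩ := (inferInstance : Nonempty ι)
  constructor
  · intro h
    have h1 := congrFun h i
    rw [Pi.natCast_apply, Pi.zero_apply] at h1
    exact (CharP.cast_eq_zero_iff (C i) p x).1 h1
  · intro h
    funext e
    rw [Pi.natCast_apply, Pi.zero_apply]
    exact (CharP.cast_eq_zero_iff (C e) p x).2 h

attribute [local instance] charP_pi

theorem perfectRing_pi [Nonempty ι] [∀ e, CharP (C e) p] [∀ e, PerfectRing (C e) p] :
    PerfectRing (∀ e, C e) p := by
  refine ⟨⟨fun x y h => ?_, fun y => ?_⟩⟩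
  · funext e
    apply (PerfectRing.bijective_frobenius (R := C e) (p := p)).1
    exact congrFun h e
  · choose x hx using fun e => (PerfectRing.bijective_frobenius (R := C e) (p := p)).2 (y e)
    exact ⟨x, funext fun e => hx e⟩

/-- the component. -/
noncomputable def prj (e : ι) : WittVector p (∀ e, C e) →+* WittVector p (C e) :=
  WittVector.map (Pi.evalRingHom C e)

variable {C}

theorem prj_coeff (e : ι) (x : WittVector p (∀ e, C e)) (n : ℕ) :
    (prj p C e x).coeff n = x.coeff n e := by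
  rw [prj, WittVector.map_coeff, Pi.evalRingHom_apply]

theorem prj_ext {x y : WittVector p (∀ e, C e)} (h : ∀ e, prj p C e x = prj p C e y) : x = y := by
  ext n e
  rw [← prj_coeff, ← prj_coeff, h]

theorem prj_te (e : ι) (a : ∀ e, C e) :
    prj p C e (teichmuller p a) = teichmuller p (a e) := by
  rw [prj, WittVector.map_teichmuller, Pi.evalRingHom_apply]

theorem exists_prj (x : ∀ e, WittVector p (C e)) :
    ∃ y : WittVector p (∀ e, C e), ∀ e, prj p C e y = x e := by
  refine ⟨WittVector.mk p fun n e => (x e).coeff n, fun e => ?_⟩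
  ext n
  rw [prj_coeff, WittVector.coeff_mk]

omit hp in
theorem isPerf_pi {J : ∀ e, Ideal (C e)} (hJ : ∀ e, IsPerf p (J e)) : IsPerf p (Ideal.pi J) := by
  intro a ha b hb i hi c hc e
  exact hJ e (a e) (ha e) (b e) (hb e) i hi (c e) (by
    have := congrFun hc e
    simpa using this)

theorem mem_nonZeroDivisors_pi {t : ∀ e, C e} (ht : ∀ e, t e ∈ nonZeroDivisors (C e)) :
    t ∈ nonZeroDivisors (∀ e, C e) := by
  rw [mem_nonZeroDivisors_iff_right]
  intro x hx
  funext e
  exact (mem_nonZeroDivisors_iff_right.1 (ht e)) (x e) (congrFun hx e)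

end

section

variable (p : ℕ) [hp : Fact p.Prime] {ι : Type v} [Nonempty ι] {C : ι → Type w}
  [∀ e, CommRing (C e)] [∀ e, CharP (C e) p] [∀ e, PerfectRing (C e) p]

attribute [local instance] charP_pi perfectRing_pi

theorem mem_WI_pi {J : ∀ e, Ideal (C e)} (hJ : ∀ e, IsPerf p (J e))
    {x : WittVector p (∀ e, C e)} :
    x ∈ WI p (Ideal.pi J) ↔ ∀ e, prj p C e x ∈ WI p (J e) := by
  rw [mem_WI_iff_coeff p (isPerf_pi p hJ)]
  constructor
  · intro h e
    rw [mem_WI_iff_coeff p (hJ e)]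
    intro k
    obtain ⟨c, hc, hck⟩ := h k
    exact ⟨c e, hc e, by rw [prj_coeff, hck, Pi.pow_apply]⟩
  · intro h k
    have h1 : ∀ e, ∃ c ∈ J e, x.coeff k e = c ^ p ^ k := by
      intro e
      obtain ⟨c, hc, hck⟩ := (mem_WI_iff_coeff p (hJ e)).1 (h e) k
      exact ⟨c, hc, by rw [← prj_coeff, hck]⟩
    choose c hc hck using h1
    exact ⟨c, fun e => hc e, funext fun e => by rw [Pi.pow_apply, hck e]⟩

omit [∀ e, CharP (C e) p] [∀ e, PerfectRing (C e) p] [Nonempty ι] in
theorem mem_XI_mul {R : Type w} [CommRing R] {t : R} {N : ℕ} {I : Ideal (WittVector p R)}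
    {x : WittVector p R} : x ∈ XI p t N * I ↔ ∃ v ∈ I, ∃ w ∈ I,
      x = ((p : WittVector p R) - teichmuller p t) * v + (p : WittVector p R) ^ N * w := by
  unfold XI
  rw [Ideal.sup_mul, Submodule.mem_sup]
  constructor
  · rintro ⟨a, ha, b, hb, rfl⟩
    rw [Ideal.mem_span_singleton_mul] at ha hb
    obtain ⟨v, hv, rfl⟩ := ha
    obtain ⟨w, hw, rfl⟩ := hb
    exact ⟨v, hv, w, hw, rfl⟩
  · rintro ⟨v, hv, w, hw, rfl⟩
    exact ⟨_, Ideal.mul_mem_mul (Ideal.mem_span_singleton_self _) hv, _,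
      Ideal.mul_mem_mul (Ideal.mem_span_singleton_self _) hw, rfl⟩

theorem mem_XI_mul_WI_pi {J : ∀ e, Ideal (C e)} (hJ : ∀ e, IsPerf p (J e)) {t : ∀ e, C e} {N : ℕ}
    {x : WittVector p (∀ e, C e)} :
    x ∈ XI p t N * WI p (Ideal.pi J) ↔ ∀ e, prj p C e x ∈ XI p (t e) N * WI p (J e) := by
  rw [mem_XI_mul]
  constructor
  · rintro ⟨v, hv, w, hw, rfl⟩ e
    rw [mem_XI_mul]
    exact ⟨prj p C e v, (mem_WI_pi p hJ).1 hv e, prj p C e w, (mem_WI_pi p hJ).1 hw e, by
      rw [map_add, map_mul, map_mul, map_sub, map_pow, map_natCast, prj_te]⟩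
  · intro h
    have h1 : ∀ e, ∃ v ∈ WI p (J e), ∃ w ∈ WI p (J e), prj p C e x =
        ((p : WittVector p (C e)) - teichmuller p (t e)) * v +
          (p : WittVector p (C e)) ^ N * w := fun e => (mem_XI_mul p).1 (h e)
    choose v hv w hw hvw using h1
    obtain ⟨v', hv'⟩ := exists_prj p v
    obtain ⟨w', hw'⟩ := exists_prj p w
    refine ⟨v', (mem_WI_pi p hJ).2 fun e => by rw [hv']; exact hv e, w',
      (mem_WI_pi p hJ).2 fun e => by rw [hw']; exact hw e, prj_ext p fun e => ?_⟩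
    rw [map_add, map_mul, map_mul, map_sub, map_pow, map_natCast, prj_te, hv', hw']
    exact hvw e

end

section

variable {ι : Type v} {W : Type u} [CommRing W] {V : ι → Type w} [∀ e, CommRing (V e)]
  {G : Type*} [AddCommGroup G] {n : ℕ}

/-- the family with components `F e`. -/
def RFam.pull (π : ∀ e, W →+* V e) (F : ∀ e, RFam (V e) G) : RFam W G where
  M s := ⨅ e, ((F e).M s).comap (π e)
  N s := ⨅ e, ((F e).N s).comap (π e)
  le s := iInf_mono fun e => Ideal.comap_mono ((F e).le s)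
  one := by
    rw [Submodule.mem_iInf]
    intro e
    rw [Ideal.mem_comap, map_one]
    exact (F e).one
  mul := by
    intro s s' x y hx hy
    rw [Submodule.mem_iInf] at hx hy ⊢
    intro e
    rw [Ideal.mem_comap, map_mul]
    exact (F e).mul (hx e) (hy e)
  mulN := by
    intro s s' x y hx hy
    rw [Submodule.mem_iInf] at hx hy ⊢
    intro e
    rw [Ideal.mem_comap, map_mul]
    exact (F e).mulN (hx e) (hy e)

variable {π : ∀ e, W →+* V e} {F : ∀ e, RFam (V e) G}

theorem RFam.mem_pull_M {s : G} {x : W} : x ∈ (RFam.pull π F).M s ↔ ∀ e, π e x ∈ (F e).M s :=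
  (Submodule.mem_iInf _)

theorem RFam.mem_pull_N {s : G} {x : W} : x ∈ (RFam.pull π F).N s ↔ ∀ e, π e x ∈ (F e).N s :=
  (Submodule.mem_iInf _)

theorem map_wdg {R S : Type*} [CommRing R] [CommRing S] (f : R →+* S) {j : ℕ}
    (T : (Fin j → Fin n) → R) (v : Fin n → R) (t : Fin (j + 1) → Fin n) :
    f (Flag.wdg T v t) = Flag.wdg (fun t => f (T t)) (fun i => f (v i)) t := by
  unfold Flag.wdg
  simp

variable {τ : ∀ j : ℕ, (Fin j → Fin n) → W} {d : ℕ → G}

theorem skoN_pull (hsurj : ∀ y : ∀ e, V e, ∃ x : W, ∀ e, π e x = y e) {j : ℕ} {s : G}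
    (h : ∀ e, SkoN (F e) (fun j t => π e (τ j t)) d j s) : SkoN (RFam.pull π F) τ d j s := by
  intro a ha
  rw [RFam.mem_pull_M] at ha
  choose g hg hga using fun e => h e (π e a) (ha e)
  choose g' hg' using fun ρ => hsurj fun e => g e ρ
  refine ⟨g', fun ρ => ?_, ?_⟩
  · rw [RFam.mem_pull_M]
    intro e
    rw [hg']
    exact hg e ρ
  · rw [RFam.mem_pull_N]
    intro e
    have h1 := hga e
    rw [map_sub, map_sum]
    simp only [map_mul, hg']
    exact h1

theorem colN_pull (hsurj : ∀ y : ∀ e, V e, ∃ x : W, ∀ e, π e x = y e) {j : ℕ} {s : G}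
    (h : ∀ e, ColN (F e) (fun j t => π e (τ j t)) d j s) : ColN (RFam.pull π F) τ d j s := by
  intro β hβ hββ
  have h1 : ∀ e, ∃ a ∈ (F e).M (s - d j), ∀ t, π e (β t) - π e (τ j t) * a ∈ (F e).N s := by
    intro e
    refine h e (fun t => π e (β t)) (fun t => (RFam.mem_pull_M).1 (hβ t) e) fun t t' => ?_
    have h2 := (RFam.mem_pull_N).1 (hββ t t') e
    rwa [map_sub, map_mul, map_mul] at h2
  choose a ha haβ using h1
  obtain ⟨a', ha'⟩ := hsurj a
  refine ⟨a', (RFam.mem_pull_M).2 fun e => by rw [ha']; exact ha e, fun t =>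
    (RFam.mem_pull_N).2 fun e => ?_⟩
  rw [map_sub, map_mul, ha']
  exact haβ e t

/-- injectivity of the multiplication by all `τ j t`. -/
theorem inj_pull {j : ℕ} {s : G}
    (h : ∀ e, ∀ x ∈ (F e).M s, (∀ t, π e (τ j t) * x ∈ (F e).N (s + d j)) → x ∈ (F e).N s) :
    ∀ x ∈ (RFam.pull π F).M s, (∀ t, τ j t * x ∈ (RFam.pull π F).N (s + d j)) →
      x ∈ (RFam.pull π F).N s := by
  intro x hx hxt
  refine (RFam.mem_pull_N).2 fun e => h e _ ((RFam.mem_pull_M).1 hx e) fun t => ?_
  have := (RFam.mem_pull_N).1 (hxt t) e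
  rwa [map_mul] at this

theorem eigN_pull {X : Matrix (Fin n) (Fin n) W} {c : ℕ → W}
    (h : ∀ e, EigN (F e) (fun j t => π e (τ j t)) d (X.map (π e)) (fun j => π e (c j))) :
    EigN (RFam.pull π F) τ d X c := by
  intro j ρ t
  refine (RFam.mem_pull_N).2 fun e => ?_
  have := h e j ρ t
  rw [map_wdg]
  simpa [Matrix.map_apply] using this

end

end Vale.Agent.P177.PI
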