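import Vale.Agent.P177.PI.WIdeal
import Vale.Agent.P202.Mix.TeiA

/-!
P177, the key lemma T3 inside a perfect ideal `J`: divisibility by `p - [t]` modulo `p ^ n` of an
element of `WI J`, with cofactors in `WI J`.
-/

namespace Vale.Agent.P177.PI

open WittVector P202.Mix

universe u

section

variable (p : ℕ) [hp : Fact p.Prime] {C : Type u} [CommRing C] [CharP C p] [PerfectRing C p]

theorem pow_pow_inj {a b : C} (n : ℕ) (h : a ^ p ^ n = b ^ p ^ n) : a = b := by
  apply (iterateFrobeniusEquiv C p n).injective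
  rw [coe_iterateFrobeniusEquiv, iterateFrobenius_def, iterateFrobenius_def, h]

theorem rt_mul (e : ℕ) (a b : C) : rt p e (a * b) = rt p e a * rt p e b := by
  unfold rt
  exact map_mul _ a b

theorem rt_of_pow (e : ℕ) (a : C) : rt p e (a ^ p ^ e) = a := by
  apply pow_pow_inj p e
  rw [rt_pow]

omit [PerfectRing C p] in
theorem p_mul_coeff_zero (y : WittVector p C) : ((p : WittVector p C) * y).coeff 0 = 0 := by
  have h1 : WittVector.constantCoeff ((p : WittVector p C) * y) = 0 := by
    rw [map_mul, map_natCast, CharP.cast_eq_zero, zero_mul]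
  exact h1

omit [PerfectRing C p] in
theorem te_add_p_mul_coeff_succ (a : C) (y : WittVector p C) (k : ℕ) :
    (teichmuller p a + (p : WittVector p C) * y).coeff (k + 1) = y.coeff k ^ p := by
  rw [coeff_add_of_disjoint]
  · rw [teichmuller_coeff_pos p a (k + 1) (Nat.succ_pos k), zero_add, mul_comm,
      mul_charP_coeff_succ]
  · intro n
    rcases Nat.eq_zero_or_pos n with rfl | hn
    · exact Or.inr (p_mul_coeff_zero p y)
    · exact Or.inl (teichmuller_coeff_pos p a n hn)

/-- `WI J` in Witt coordinates. -/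
theorem coeff_of_mem_WI {J : Ideal C} (hJ : IsPerf p J) {x : WittVector p C} (hx : x ∈ WI p J)
    (k : ℕ) : ∃ c ∈ J, x.coeff k = c ^ p ^ k := by
  induction k generalizing x with
  | zero => exact ⟨x.coeff 0, coeff_zero_mem p hJ hx, by rw [pow_zero, pow_one]⟩
  | succ k ih =>
    obtain ⟨-, y, hy, he⟩ := exists_of_mem_WI p hJ hx
    obtain ⟨c, hc, hce⟩ := ih hy
    refine ⟨c, hc, ?_⟩
    rw [he, te_add_p_mul_coeff_succ, hce, ← pow_mul, pow_succ]

theorem mem_WI_of_coeff {J : Ideal C} {x : WittVector p C}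
    (h : ∀ k, ∃ c ∈ J, x.coeff k = c ^ p ^ k) : x ∈ WI p J := by
  rw [mem_WI]
  intro N
  rcases Nat.eq_zero_or_pos N with rfl | hN
  · unfold TN
    rw [pow_zero, Ideal.span_singleton_one, sup_top_eq]
    trivial
  obtain ⟨n, rfl⟩ : ∃ n, N = n + 1 := ⟨N - 1, by omega⟩
  obtain ⟨z, hz⟩ := dvd_sub_sum_teichmuller_iterateFrobeniusEquiv_coeff x n
  rw [mem_TN_iff]
  refine ⟨_, ?_, z, sub_eq_iff_eq_add'.1 hz⟩
  refine Ideal.sum_mem _ fun i _ => Ideal.mul_mem_right _ _ (te_mem_TI p ?_)
  obtain ⟨c, hc, hce⟩ := h i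
  have : ((_root_.frobeniusEquiv C p).symm ^ i) (x.coeff i) = c := by
    apply pow_pow_inj p i
    have h1 : ∀ (i : ℕ) (a : C), ((_root_.frobeniusEquiv C p).symm ^ i) a ^ p ^ i = a := by
      intro i
      induction i with
      | zero => intro a; simp
      | succ i ih =>
        intro a
        rw [pow_succ (_root_.frobeniusEquiv C p).symm, pow_succ p, pow_mul]
        change (((_root_.frobeniusEquiv C p).symm ^ i)
          ((_root_.frobeniusEquiv C p).symm a) ^ p ^ i) ^ p = a
        rw [ih]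
        have := (_root_.frobeniusEquiv C p).apply_symm_apply a
        rwa [_root_.frobeniusEquiv_apply, frobenius_def] at this
    rw [h1, hce]
  rw [this]
  exact hc

theorem mem_WI_iff_coeff {J : Ideal C} (hJ : IsPerf p J) {x : WittVector p C} :
    x ∈ WI p J ↔ ∀ k, ∃ c ∈ J, x.coeff k = c ^ p ^ k :=
  ⟨fun hx => coeff_of_mem_WI p hJ hx, mem_WI_of_coeff p⟩

/-- `x` congruent modulo `p ^ k` to `[t] ^ m * v`, `v ∈ WI J`. -/
def Dv (J : Ideal C) (t : C) (y : WittVector p C) (k m : ℕ) : Prop :=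
  ∃ v ∈ WI p J, (p : WittVector p C) ^ k ∣ y - teichmuller p t ^ m * v

theorem Dv_iff {J : Ideal C} (hJ : IsPerf p J) {t : C} {y : WittVector p C} {k m : ℕ} :
    Dv p J t y k m ↔ ∀ i < k, ∃ c ∈ J, y.coeff i = (t ^ m * c) ^ p ^ i := by
  constructor
  · rintro ⟨v, hv, hd⟩ i hi
    obtain ⟨c, hc, hce⟩ := coeff_of_mem_WI p hJ hv i
    refine ⟨c, hc, ?_⟩
    rw [coeff_eq_of_dvd_sub hd hi, ← map_pow, teichmuller_mul_coeff, hce, mul_pow]
  · intro h
    have h' : ∀ i, ∃ c ∈ J, i < k → y.coeff i = (t ^ m * c) ^ p ^ i := by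
      intro i
      by_cases hi : i < k
      · obtain ⟨c, hc, hce⟩ := h i hi
        exact ⟨c, hc, fun _ => hce⟩
      · exact ⟨0, zero_mem _, fun hi' => absurd hi' hi⟩
    choose c hc hce using h'
    refine ⟨WittVector.mk p fun i => c i ^ p ^ i, mem_WI_of_coeff p fun i =>
      ⟨c i, hc i, by rw [coeff_mk]⟩, ?_⟩
    rw [dvd_sub_iff]
    intro i hi
    rw [hce i hi, ← map_pow, teichmuller_mul_coeff, coeff_mk, mul_pow]

/-- the step `S(k + 1, m) → S(k, m + 1)`. -/
theorem Dv_step {J : Ideal C} (hJ : IsPerf p J) {t : C} {x y : WittVector p C}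
    (hx : x ∈ WI p J) {I : ℕ}
    (hy : (p : WittVector p C) ^ (I + 1) ∣ (p - teichmuller p t) * y - teichmuller p t ^ (I + 1) * x)
    {k m : ℕ} (hm : m ≤ I) (hk : k ≤ I) (h : Dv p J t y (k + 1) m) : Dv p J t y k (m + 1) := by
  obtain ⟨v, hv, hd⟩ := h
  rw [Dv_iff p hJ]
  intro i hi
  set u : WittVector p C := v + teichmuller p t ^ (I - m) * x with hu
  have hu' : u ∈ WI p J := add_mem hv (Ideal.mul_mem_left _ _ hx)
  have hpy : (p : WittVector p C) ^ (k + 1) ∣ y * p - teichmuller p (t ^ (m + 1)) * u := by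
    have h1 : y * p - teichmuller p (t ^ (m + 1)) * u =
        ((p - teichmuller p t) * y - teichmuller p t ^ (I + 1) * x) +
          teichmuller p t * (y - teichmuller p t ^ m * v) := by
      have h2 : teichmuller p t ^ (I + 1) = teichmuller p t ^ (m + 1) * teichmuller p t ^ (I - m) := by
        rw [← pow_add]; congr 1; omega
      rw [map_pow, h2, hu]; ring
    rw [h1]
    exact dvd_add ((pow_dvd_pow _ (by omega)).trans hy) (Dvd.dvd.mul_left hd _)
  obtain ⟨c, hc, hce⟩ := coeff_of_mem_WI p hJ hu' (i + 1)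
  refine ⟨c, hc, ?_⟩
  have h3 := coeff_eq_of_dvd_sub hpy (i := i + 1) (by omega)
  rw [mul_charP_coeff_succ, teichmuller_mul_coeff, hce, ← mul_pow] at h3
  apply pow_inj p
  rw [h3, ← pow_mul, pow_succ p i]

/-- T3 inside `J`. -/
theorem t3J {J : Ideal C} (hJ : IsPerf p J) {t : C} (ht : t ∈ nonZeroDivisors C)
    {x : WittVector p C} (hx : x ∈ WI p J) (I n : ℕ) (hn : n ≤ I + 1) {b : C} (hb : b ∈ J)
    (h0 : (-(∑ j ∈ Finset.range (I + 1), (p : WittVector p C) ^ j * teichmuller p t ^ (I - j)) *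
      x).coeff I = (t ^ n * b) ^ p ^ I) :
    ∃ v ∈ WI p J, ∃ w ∈ WI p J, x = (p - teichmuller p t) * v + (p : WittVector p C) ^ n * w := by
  set y : WittVector p C := -(∑ j ∈ Finset.range (I + 1), (p : WittVector p C) ^ j *
    teichmuller p t ^ (I - j)) * x with hydef
  have hyJ : y ∈ WI p J := Ideal.mul_mem_left _ _ hx
  have hgeom : (∑ j ∈ Finset.range (I + 1), (p : WittVector p C) ^ j * teichmuller p t ^ (I - j)) *
      ((p : WittVector p C) - teichmuller p t) = (p : WittVector p C) ^ (I + 1) -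
        teichmuller p t ^ (I + 1) := by
    have := Commute.geom_sum₂_mul (Commute.all (p : WittVector p C) (teichmuller p t)) (I + 1)
    simpa using this
  have hy : ((p : WittVector p C) - teichmuller p t) * y - teichmuller p t ^ (I + 1) * x =
      (p : WittVector p C) ^ (I + 1) * (-x) := by
    have : ((p : WittVector p C) - teichmuller p t) * y = -((p : WittVector p C) ^ (I + 1) -
        teichmuller p t ^ (I + 1)) * x := by
      rw [← hgeom, hydef]; ring
    rw [this]; ring
  -- first phase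
  have hA : ∀ m ≤ n, Dv p J t y (I + 1) m := by
    intro m
    induction m with
    | zero =>
      intro _
      exact ⟨y, hyJ, by rw [pow_zero, one_mul, sub_self]; exact dvd_zero _⟩
    | succ m ih =>
      intro hm
      have h1 := Dv_step p hJ hx ⟨-x, hy⟩ (k := I) (m := m) (by omega) le_rfl (ih (by omega))
      rw [Dv_iff p hJ] at h1 ⊢
      intro i hi
      rcases Nat.lt_succ_iff_lt_or_eq.1 hi with h | h
      · exact h1 i h
      · subst h
        refine ⟨t ^ (n - (m + 1)) * b, Ideal.mul_mem_left _ _ hb, ?_⟩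
        rw [h0, ← mul_assoc, ← pow_add]
        congr 3
        omega
  -- second phase
  have hB : ∀ i, n + i ≤ I + 1 → Dv p J t y (I + 1 - i) (n + i) := by
    intro i
    induction i with
    | zero => intro _; exact hA n le_rfl
    | succ i ih =>
      intro hi
      have h1 := ih (by omega)
      have h2 : I + 1 - i = (I - i) + 1 := by omega
      rw [h2] at h1
      have h3 := Dv_step p hJ hx ⟨-x, hy⟩ (k := I - i) (m := n + i) (by omega) (by omega) h1
      have h4 : I + 1 - (i + 1) = I - i := by omega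
      rw [h4]
      exact h3
  obtain ⟨v, hv, hd⟩ := hB (I + 1 - n) (by omega)
  have e1 : I + 1 - (I + 1 - n) = n := by omega
  have e2 : n + (I + 1 - n) = I + 1 := by omega
  rw [e1, e2] at hd
  have h1 : (p : WittVector p C) ^ n ∣ teichmuller p (t ^ (I + 1)) *
      (x - (p - teichmuller p t) * v) - 0 := by
    have h2 : teichmuller p (t ^ (I + 1)) * (x - (p - teichmuller p t) * v) - 0 =
        ((p : WittVector p C) - teichmuller p t) * (y - teichmuller p t ^ (I + 1) * v) -
        (((p : WittVector p C) - teichmuller p t) * y - teichmuller p t ^ (I + 1) * x) := by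
      rw [map_pow]; ring
    rw [h2]
    exact dvd_sub (Dvd.dvd.mul_left hd _) ((pow_dvd_pow _ hn).trans ⟨-x, hy⟩)
  have h3 : (p : WittVector p C) ^ n ∣ (x - (p - teichmuller p t) * v) - 0 := by
    rw [dvd_sub_iff]
    intro i hi
    have h4 := coeff_eq_of_dvd_sub h1 hi
    rw [teichmuller_mul_coeff, zero_coeff] at h4
    rw [zero_coeff]
    have ht' : (t ^ (I + 1)) ^ p ^ i ∈ nonZeroDivisors C := pow_mem (pow_mem ht _) _
    exact (mul_left_mem_nonZeroDivisors_eq_zero_iff ht').1 h4
  obtain ⟨w, hw⟩ := h3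
  rw [sub_zero] at hw
  refine ⟨v, hv, w, ?_, by rw [← hw]; ring⟩
  apply mem_of_p_pow_mul_mem p hJ n
  rw [← hw]
  exact sub_mem hx (Ideal.mul_mem_left _ _ hv)

/-- the invariant of an element of `(p - [t], p ^ (I + 1))`. -/
theorem inv_of_mem (t : C) (I : ℕ) (v w x : WittVector p C)
    (hx : x = (p - teichmuller p t) * v + (p : WittVector p C) ^ (I + 1) * w) :
    (-(∑ j ∈ Finset.range (I + 1), (p : WittVector p C) ^ j * teichmuller p t ^ (I - j)) *
      x).coeff I = (t ^ (I + 1)) ^ p ^ I * v.coeff I := by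
  have hgeom : (∑ j ∈ Finset.range (I + 1), (p : WittVector p C) ^ j * teichmuller p t ^ (I - j)) *
      ((p : WittVector p C) - teichmuller p t) = (p : WittVector p C) ^ (I + 1) -
        teichmuller p t ^ (I + 1) := by
    have := Commute.geom_sum₂_mul (Commute.all (p : WittVector p C) (teichmuller p t)) (I + 1)
    simpa using this
  rw [← teichmuller_mul_coeff]
  refine coeff_eq_of_dvd_sub (n := I + 1) ?_ (by omega)
  refine ⟨-v - (∑ j ∈ Finset.range (I + 1), (p : WittVector p C) ^ j *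
    teichmuller p t ^ (I - j)) * w, ?_⟩
  rw [hx, map_pow]
  linear_combination (-v) * hgeom

/-- relations modulo `(p - [t], p ^ (I + 1))` hold inside `J` after multiplication by `[g ^ θ]`,
`g ∈ J`, `θ = m / p ^ k`, with precision `n ≤ θ (I + 1)`. -/
theorem te_mul_mem {J : Ideal C} (hJ : IsPerf p J) {t : C} (ht : t ∈ nonZeroDivisors C)
    {x : WittVector p C} (hx : x ∈ WI p J) (I : ℕ) {v w : WittVector p C}
    (hxe : x = (p - teichmuller p t) * v + (p : WittVector p C) ^ (I + 1) * w)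
    {g : C} (hg : g ∈ J) (k m n : ℕ) (hm : m ≤ p ^ k) (hn : n * p ^ k ≤ (I + 1) * m) :
    ∃ v' ∈ WI p J, ∃ w' ∈ WI p J, teichmuller p (rt p k (g ^ m)) * x =
      (p - teichmuller p t) * v' + (p : WittVector p C) ^ n * w' := by
  have hp0 : 0 < p := hp.out.pos
  have hpk : 0 < p ^ k := Nat.pow_pos hp0
  have hnI : n ≤ I + 1 := by
    have h1 : n * p ^ k ≤ (I + 1) * p ^ k := hn.trans (Nat.mul_le_mul_left _ hm)
    exact Nat.le_of_mul_le_mul_right h1 hpk
  -- the invariant
  have hinv := inv_of_mem p t I v w x hxe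
  obtain ⟨a, ha, hae⟩ := coeff_of_mem_WI p hJ (Ideal.mul_mem_left (WI p J)
    (-(∑ j ∈ Finset.range (I + 1), (p : WittVector p C) ^ j * teichmuller p t ^ (I - j))) hx) I
  set a' : C := rt p I (v.coeff I) with ha'
  have haa' : a = t ^ (I + 1) * a' := by
    apply pow_pow_inj p I
    rw [← hae, hinv, mul_pow, ha', rt_pow]
  -- the element `b`
  set b : C := rt p k (t ^ ((I + 1) * m - n * p ^ k)) *
    (rt p k (g * a') ^ m * rt p k a ^ (p ^ k - m)) with hbdef
  have hb : b ∈ J := by
    refine Ideal.mul_mem_left _ _ ?_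
    exact hJ.mean (Ideal.mul_mem_right _ _ hg) ha k m hm
  have hbe : t ^ n * b = rt p k (g ^ m) * a := by
    apply pow_pow_inj p k
    rw [hbdef, mul_pow, mul_pow, mul_pow, mul_pow, ← pow_mul, ← pow_mul, ← pow_mul,
      mul_comm m (p ^ k), mul_comm (p ^ k - m) (p ^ k), pow_mul (rt p k (g * a')),
      pow_mul (rt p k a), rt_pow, rt_pow, rt_pow, rt_pow]
    have h1 : a ^ p ^ k = a ^ m * a ^ (p ^ k - m) := by
      rw [← pow_add]; congr 1; omega
    have h2 : a ^ m = t ^ ((I + 1) * m) * a' ^ m := by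
      rw [haa', mul_pow, ← pow_mul]
    have h3 : t ^ ((I + 1) * m) = t ^ (n * p ^ k) * t ^ ((I + 1) * m - n * p ^ k) := by
      rw [← pow_add]; congr 1; omega
    rw [h1, h2, h3, mul_pow]
    ring
  refine t3J p hJ ht (Ideal.mul_mem_left _ _ hx) I n hnI hb ?_
  rw [hbe, mul_pow]
  have h4 : -(∑ j ∈ Finset.range (I + 1), (p : WittVector p C) ^ j * teichmuller p t ^ (I - j)) *
      (teichmuller p (rt p k (g ^ m)) * x) = teichmuller p (rt p k (g ^ m)) *
      (-(∑ j ∈ Finset.range (I + 1), (p : WittVector p C) ^ j * teichmuller p t ^ (I - j)) *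
        x) := by ring
  rw [h4, teichmuller_mul_coeff, hae]

end

end Vale.Agent.P177.PI
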