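import Mathlib

/-!
Block CHOICE, general part: finiteness over power series rings with coefficients in a complete
ring, and systems of parameters.
-/

namespace Vale.Agent.P177

open IsLocalRing MvPowerSeries

/-- finite free modules over precomplete rings are precomplete. -/
theorem ch_isPrecomplete_pi {L : Type*} [CommRing L] (I : Ideal L) [IsPrecomplete I L] (n : ℕ) :
    IsPrecomplete I (Fin n → L) := by
  have key : ∀ (m : ℕ) (v : Fin n → L),
      v ∈ (I ^ m • (⊤ : Submodule L (Fin n → L))) ↔ ∀ i, v i ∈ I ^ m := by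
    intro m v
    constructor
    · intro h i
      have h2 : (LinearMap.proj i : (Fin n → L) →ₗ[L] L) v ∈
          Submodule.map (LinearMap.proj i : (Fin n → L) →ₗ[L] L)
            (I ^ m • (⊤ : Submodule L (Fin n → L))) := Submodule.mem_map_of_mem h
      rw [Submodule.map_smul''] at h2
      have h3 := Submodule.smul_mono (le_refl (I ^ m)) (le_top : Submodule.map (LinearMap.proj i :
        (Fin n → L) →ₗ[L] L) (⊤ : Submodule L (Fin n → L)) ≤ ⊤) h2
      simpa using h3
    · intro h
      have h2 : v = ∑ i, v i • (Pi.single i (1 : L) : Fin n → L) := by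
        ext j
        simp [Finset.sum_apply, Pi.single_apply]
      rw [h2]
      exact Submodule.sum_mem _ fun i _ => Submodule.smul_mem_smul (h i) trivial
  refine ⟨fun f hf => ?_⟩
  have h1 : ∀ i, ∃ l : L, ∀ m, f m i ≡ l [SMOD (I ^ m • ⊤ : Submodule L L)] := by
    intro i
    refine IsPrecomplete.prec ‹_› (f := fun m => f m i) fun {m m'} hm => ?_
    have h2 := hf hm
    rw [SModEq.sub_mem, key] at h2
    rw [SModEq.sub_mem, smul_eq_mul, Ideal.mul_top]
    exact h2 i
  choose l hl using h1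
  refine ⟨l, fun m => ?_⟩
  rw [SModEq.sub_mem, key]
  intro i
  have h2 := hl i m
  rw [SModEq.sub_mem, smul_eq_mul, Ideal.mul_top] at h2
  exact h2

/-- approximation by combinations with coefficients in `K`. -/
theorem ch_approx {K S : Type*} [CommRing K] [CommRing S] [IsLocalRing S] [IsNoetherianRing S]
    (τ : K →+* S) (hK : ∀ z : S, ∃ a : K, z - τ a ∈ maximalIdeal S) (m : ℕ) :
    ∃ (n : ℕ) (g : Fin n → S), ∀ z : S, ∃ c : Fin n → K,
      z - ∑ i, τ (c i) * g i ∈ maximalIdeal S ^ m := by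
  induction m with
  | zero => exact ⟨0, Fin.elim0, fun z => ⟨Fin.elim0, by simp⟩⟩
  | succ m ih =>
    obtain ⟨n, g, h⟩ := ih
    obtain ⟨t, e, he⟩ := Submodule.fg_iff_exists_fin_generating_family.1
      (IsNoetherian.noetherian (maximalIdeal S ^ m) : (maximalIdeal S ^ m).FG)
    choose a ha using hK
    refine ⟨n + t, Fin.append g e, fun z => ?_⟩
    obtain ⟨c, hc⟩ := h z
    rw [← he, Submodule.mem_span_range_iff_exists_fun] at hc
    obtain ⟨b, hb⟩ := hc
    refine ⟨Fin.append c fun i => a (b i), ?_⟩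
    rw [Fin.sum_univ_add]
    simp only [Fin.append_left, Fin.append_right]
    have h2 : z - (∑ i, τ (c i) * g i + ∑ i, τ (a (b i)) * e i) =
        ∑ i, (b i - τ (a (b i))) * e i := by
      rw [← sub_sub, ← hb, ← Finset.sum_sub_distrib]
      refine Finset.sum_congr rfl fun i _ => ?_
      rw [smul_eq_mul, sub_mul]
    rw [h2, pow_succ']
    refine Ideal.sum_mem _ fun i _ => Ideal.mul_mem_mul (ha _) ?_
    rw [← he]
    exact Submodule.subset_span ⟨i, rfl⟩

/-- finiteness over the power series ring over a complete coefficient ring. -/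
theorem ch_finite {K S : Type*} [CommRing K] [CommRing S] [IsLocalRing S] [IsNoetherianRing S]
    (ϖ : K) [IsPrecomplete (Ideal.span {ϖ}) K] {r : ℕ} (φ : MvPowerSeries (Fin r) K →+* S)
    (hK : ∀ z : S, ∃ a : K, z - φ (C a) ∈ maximalIdeal S)
    (hϖ : φ (C ϖ) ∈ maximalIdeal S) (hx : ∀ i, φ (X i) ∈ maximalIdeal S)
    {M : ℕ} (hM : maximalIdeal S ^ M ≤
      Ideal.span ({φ (C ϖ)} ∪ Set.range fun i => φ (X i))) : φ.Finite := by
  set τ : K →+* S := φ.comp C with hτ
  set J : Ideal S := Ideal.span (Set.range fun i => φ (X i)) with hJ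
  obtain ⟨n, g, hg⟩ := ch_approx τ hK M
  -- step 1: modulo the variables
  have step1 : ∀ z : S, ∃ c : Fin n → K, z - ∑ i, τ (c i) * g i ∈ J := by
    let _ : Algebra K S := τ.toAlgebra
    have hτa : ∀ c, algebraMap K S c = τ c := fun c => rfl
    have h1 : (Ideal.span {ϖ}).map (algebraMap K S) ≤ maximalIdeal S := by
      rw [Ideal.map_span, Set.image_singleton, Ideal.span_singleton_le_iff_mem]
      exact hϖ
    have h2 : IsHausdorff (Ideal.span {ϖ}) (S ⧸ J) := IsHausdorff.of_map h1
    have h3 := ch_isPrecomplete_pi (Ideal.span {ϖ}) n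
    let f : (Fin n → K) →ₗ[K] (S ⧸ J) :=
      Fintype.linearCombination K fun i => Ideal.Quotient.mk J (g i)
    have hf : ∀ c : Fin n → K, f c = Ideal.Quotient.mk J (∑ i, τ (c i) * g i) := by
      intro c
      rw [Fintype.linearCombination_apply, map_sum]
      refine Finset.sum_congr rfl fun i _ => ?_
      rw [Algebra.smul_def, map_mul]
      rfl
    have hsurj : Function.Surjective f := by
      apply surjective_of_mkQ_comp_surjective (I := Ideal.span {ϖ})
      intro z
      obtain ⟨z, rfl⟩ := Submodule.mkQ_surjective _ z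
      obtain ⟨z, rfl⟩ := Ideal.Quotient.mk_surjective z
      obtain ⟨c, hc⟩ := hg z
      refine ⟨c, ?_⟩
      rw [LinearMap.comp_apply, hf, ← sub_eq_zero, ← map_sub, Submodule.mkQ_apply,
        Submodule.Quotient.mk_eq_zero, ← neg_mem_iff, neg_sub, ← map_sub]
      have h4 := hM hc
      rw [Ideal.span_union, Submodule.mem_sup] at h4
      obtain ⟨y, hy, w, hw, hyw⟩ := h4
      obtain ⟨y', rfl⟩ := Ideal.mem_span_singleton'.1 hy
      have h5 : Ideal.Quotient.mk J (z - ∑ i, τ (c i) * g i) =
          ϖ • Ideal.Quotient.mk J y' := by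
        rw [← hyw, map_add, Ideal.Quotient.eq_zero_iff_mem.2 hw, add_zero, Algebra.smul_def,
          mul_comm, map_mul]
        rfl
      rw [h5]
      exact Submodule.smul_mem_smul (Ideal.mem_span_singleton_self _) trivial
    intro z
    obtain ⟨c, hc⟩ := hsurj (Ideal.Quotient.mk J z)
    refine ⟨c, ?_⟩
    rw [← Ideal.Quotient.eq, ← hc, hf]
  -- step 2
  let _ : Algebra (MvPowerSeries (Fin r) K) S := φ.toAlgebra
  have hφa : ∀ c, algebraMap (MvPowerSeries (Fin r) K) S c = φ c := fun c => rfl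
  set I : Ideal (MvPowerSeries (Fin r) K) := Ideal.span (Set.range X) with hI
  have hIS : I.map (algebraMap (MvPowerSeries (Fin r) K) S) = J := by
    rw [hI, Ideal.map_span, ← Set.range_comp]
    rfl
  have hJm : J ≤ maximalIdeal S := by
    rw [hJ, Ideal.span_le]
    rintro _ ⟨i, rfl⟩
    exact hx i
  have hH : IsHausdorff I S := IsHausdorff.of_map (hIS.trans_le hJm)
  have hP := ch_isPrecomplete_pi I n
  have hsurj : Function.Surjective (Fintype.linearCombination (MvPowerSeries (Fin r) K) g) := by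
    apply surjective_of_mkQ_comp_surjective (I := I)
    intro z
    obtain ⟨z, rfl⟩ := Submodule.mkQ_surjective _ z
    obtain ⟨c, hc⟩ := step1 z
    refine ⟨fun i => C (c i), ?_⟩
    rw [LinearMap.comp_apply, ← sub_eq_zero, ← map_sub, Submodule.mkQ_apply,
      Submodule.Quotient.mk_eq_zero, Ideal.smul_top_eq_map, Submodule.restrictScalars_mem, hIS,
      ← neg_mem_iff, neg_sub, Fintype.linearCombination_apply]
    exact hc
  exact Module.Finite.of_surjective _ hsurj

theorem ch_height_le_iff {R : Type*} [CommRing R] [IsLocalRing R] {d : ℕ} :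
    (maximalIdeal R).height ≤ (d : ℕ∞) ↔ ringKrullDim R ≤ (d : ℕ) := by
  rw [← IsLocalRing.maximalIdeal_height_eq_ringKrullDim]
  exact (WithBot.coe_le_coe (a := (maximalIdeal R).height) (b := (d : ℕ∞))).symm

/-- parameters of a Noetherian local ring. -/
theorem ch_params {R : Type*} [CommRing R] [IsLocalRing R] [IsNoetherianRing R] {d : ℕ}
    (hd : ringKrullDim R ≤ (d : ℕ)) : ∃ x : Fin d → R, (∀ i, x i ∈ maximalIdeal R) ∧
      ∃ M : ℕ, maximalIdeal R ^ M ≤ Ideal.span (Set.range x) := by
  classical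
  obtain ⟨s, hs, hcard⟩ := (maximalIdeal R).exists_finset_card_eq_height_of_isNoetherianRing
  rw [← ch_height_le_iff, ← hcard] at hd
  have hd' : s.card ≤ d := by exact_mod_cast hd
  have hsm : ∀ a ∈ s, a ∈ maximalIdeal R := fun a ha => hs.1.2 (Ideal.subset_span ha)
  refine ⟨fun i => if h : (i : ℕ) < s.card then (s.equivFin.symm ⟨i, h⟩ : R) else 0, ?_, ?_⟩
  · intro i
    by_cases h : (i : ℕ) < s.card
    · simp only [h, dif_pos]
      exact hsm _ (s.equivFin.symm ⟨i, h⟩).2
    · simp only [h, dif_neg, not_false_eq_true]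
      exact zero_mem _
  · have hrad : maximalIdeal R ≤ (Ideal.span (s : Set R)).radical := by
      rw [Ideal.radical_eq_sInf]
      refine le_sInf ?_
      rintro P ⟨hP, hPp⟩
      exact hs.2 ⟨hPp, hP⟩ (le_maximalIdeal hPp.ne_top)
    obtain ⟨M, hM⟩ := Ideal.exists_pow_le_of_le_radical_of_fg hrad
      (IsNoetherian.noetherian (maximalIdeal R))
    refine ⟨M, hM.trans (Ideal.span_mono ?_)⟩
    intro a ha
    refine ⟨⟨s.equivFin ⟨a, ha⟩, (s.equivFin ⟨a, ha⟩).2.trans_le hd'⟩, ?_⟩
    simp

/-- The dimension of the quotient by a regular element. -/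
theorem ch_dim_quot {A : Type*} [CommRing A] [IsLocalRing A] [IsNoetherianRing A] (x : A)
    (hx : x ∈ nonZeroDivisors A) (hxm : x ∈ maximalIdeal A) {r : ℕ}
    (hdim : ringKrullDim A ≤ (r + 1 : ℕ)) :
    ∃ _ : IsLocalRing (A ⧸ Ideal.span {x}), ringKrullDim (A ⧸ Ideal.span {x}) ≤ (r : ℕ) := by
  have hne : Ideal.span {x} ≠ ⊤ := by
    intro h
    have h1 : Ideal.span {x} ≤ maximalIdeal A := by
      rw [Ideal.span_singleton_le_iff_mem]
      exact hxm
    rw [h, top_le_iff] at h1
    exact (maximalIdeal.isMaximal A).ne_top h1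
  have : Nontrivial (A ⧸ Ideal.span {x}) := Ideal.Quotient.nontrivial_iff.2 hne
  have : IsLocalRing (A ⧸ Ideal.span {x}) :=
    IsLocalRing.of_surjective' (Ideal.Quotient.mk _) Ideal.Quotient.mk_surjective
  refine ⟨inferInstance, ?_⟩
  have h3 := (ringKrullDim_quotient_succ_le_of_nonZeroDivisor hx).trans hdim
  rw [← IsLocalRing.maximalIdeal_height_eq_ringKrullDim] at h3
  rw [← IsLocalRing.maximalIdeal_height_eq_ringKrullDim]
  have h4 : (maximalIdeal (A ⧸ Ideal.span {x})).height + 1 ≤ (r : ℕ∞) + 1 := by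
    exact_mod_cast h3
  have h5 := (ENat.add_le_add_iff_right (by simp)).1 h4
  exact_mod_cast h5

end Vale.Agent.P177
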