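import Vale.Agent.P177.PI.Kos
import Vale.Agent.P177.PI.T3J

/-!
P177, (KOSW): Koszul exactness of the Teichmueller elements `[a_1], .., [a_m]` on the modules
`WI (perfHull (P I ^ (s - |S|))) / (p - [t], p ^ N)`, `I = (a_1, .., a_m)`, for `m < s`.
-/

namespace Vale.Agent.P177.PI

open Vale.Agent.P202.Mix Vale.Agent.P177.Perf WittVector _root_.P202.Mix
open scoped Pointwise

universe u

section abstract

variable {R : Type u} [CommRing R] {m : ℕ}

theorem kd_kd (b : Fin m → R) (v : Finset (Fin m) → R) : kd b (kd b v) = 0 := by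
  rw [← kz_eq_kd, ← kz_eq_kd]
  refine kz_sq _ (fun k l v => ?_) v
  simp only [LinearMap.mulLeft_apply]
  ring

theorem kd_smul (b : Fin m → R) (c : R) (v : Finset (Fin m) → R) (S : Finset (Fin m)) :
    kd b (fun S => c * v S) S = c * kd b v S := by
  have h : kd b (c • v) = c • kd b v := by
    rw [← kz_eq_kd, map_smul]
    rfl
  exact congrFun h S

theorem kd_sub (b : Fin m → R) (v w : Finset (Fin m) → R) (S : Finset (Fin m)) :
    kd b (fun S => v S - w S) S = kd b v S - kd b w S := by
  have h : kd b (v - w) = kd b v - kd b w := by rw [← kz_eq_kd, map_sub]; rfl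
  exact congrFun h S

theorem kd_add' (b : Fin m → R) (v w : Finset (Fin m) → R) (S : Finset (Fin m)) :
    kd b (fun S => v S + w S) S = kd b v S + kd b w S := congrFun (kd_add b v w) S

/-- the differential preserves the family `G`. -/
def Stb (b : Fin m → R) (G : Finset (Fin m) → Ideal R) : Prop :=
  ∀ (l : Fin m) (S : Finset (Fin m)), l ∉ S → ∀ x ∈ G (insert l S), b l * x ∈ G S

theorem Stb.kd_mem {b : Fin m → R} {G : Finset (Fin m) → Ideal R} (h : Stb b G)
    {v : Finset (Fin m) → R} (hv : ∀ S, v S ∈ G S) (S : Finset (Fin m)) : kd b v S ∈ G S := by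
  refine Ideal.sum_mem _ fun l hl => ?_
  refine zsmul_mem ?_ _
  exact h l S (by simpa using hl) _ (hv _)

/-- Koszul exactness modulo the ideal `I`. -/
def ExI (b : Fin m → R) (G : Finset (Fin m) → Ideal R) (I : Ideal R) : Prop :=
  ∀ v : Finset (Fin m) → R, (∀ S, v S ∈ G S) → (∀ S, kd b v S ∈ I * G S) →
    ∃ w : Finset (Fin m) → R, (∀ S, w S ∈ G S) ∧ ∀ S, v S - kd b w S ∈ I * G S

theorem ExI.pow {b : Fin m → R} {G : Finset (Fin m) → Ideal R} {π : R}
    (hπ : ∀ x, π * x = 0 → x = 0) (h : ExI b G (Ideal.span {π})) (N : ℕ) :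
    ExI b G (Ideal.span {π ^ N}) := by
  have hinj : ∀ n x y, π ^ n * x = π ^ n * y → x = y := by
    intro n
    induction n with
    | zero => intro x y h; simpa using h
    | succ n ih =>
      intro x y h
      apply ih
      have : π * (π ^ n * x - π ^ n * y) = 0 := by
        have h1 : π * (π ^ n * x - π ^ n * y) = π ^ (n + 1) * x - π ^ (n + 1) * y := by ring
        rw [h1, h, sub_self]
      exact sub_eq_zero.1 (hπ _ this)
  induction N with
  | zero =>
    intro v hv _
    refine ⟨0, fun S => zero_mem _, fun S => ?_⟩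
    rw [pow_zero, Ideal.span_singleton_one, Ideal.top_mul, kd_zero]
    simpa using hv S
  | succ N ih =>
    intro v hv hz
    obtain ⟨w, hw, hvw⟩ := h v hv fun S => by
      obtain ⟨z, hz1, hz2⟩ := Ideal.mem_span_singleton_mul.1 (hz S)
      refine Ideal.mem_span_singleton_mul.2 ⟨π ^ N * z, Ideal.mul_mem_left _ _ hz1, ?_⟩
      rw [← hz2]; ring
    choose v' hv' hvv using fun S => Ideal.mem_span_singleton_mul.1 (hvw S)
    have hv1 : v = fun S => kd b w S + π * v' S := by
      funext S; rw [hvv]; ring
    have hk : ∀ S, kd b v S = π * kd b v' S := by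
      intro S
      have h1 : kd b v S = kd b (fun S => kd b w S + (fun S => π * v' S) S) S := by
        rw [hv1]
      rw [h1, kd_add', kd_smul]
      have h2 : kd b (fun S => kd b w S) S = 0 := congrFun (kd_kd b w) S
      rw [h2, zero_add]
    obtain ⟨w', hw', hvw'⟩ := ih v' hv' fun S => by
      obtain ⟨z, hz1, hz2⟩ := Ideal.mem_span_singleton_mul.1 (hz S)
      refine Ideal.mem_span_singleton_mul.2 ⟨z, hz1, ?_⟩
      apply hinj 1
      rw [pow_one, ← hk, ← hz2]; ring
    choose v'' hv'' hvv' using fun S => Ideal.mem_span_singleton_mul.1 (hvw' S)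
    refine ⟨fun S => w S + π * w' S, fun S => add_mem (hw S) (Ideal.mul_mem_left _ _ (hw' S)),
      fun S => Ideal.mem_span_singleton_mul.2 ⟨v'' S, hv'' S, ?_⟩⟩
    rw [kd_add' b w (fun S => π * w' S) S, kd_smul]
    have h1 : v S = kd b w S + π * v' S := congrFun hv1 S
    have h2 := hvv' S
    rw [h1]
    linear_combination π * h2

theorem ExI.sup {b : Fin m → R} {G : Finset (Fin m) → Ideal R} (hG : Stb b G) {q ξ : R}
    (h : ExI b G (Ideal.span {q}))
    (hξ : ∀ S, ∀ x ∈ G S, ξ * x ∈ Ideal.span {q} * G S → x ∈ Ideal.span {q} * G S) :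
    ExI b G (Ideal.span {ξ} ⊔ Ideal.span {q}) := by
  intro v hv hz
  have hz' : ∀ S, ∃ x ∈ G S, ∃ y ∈ G S, kd b v S = ξ * x + q * y := by
    intro S
    have h1 := hz S
    rw [Ideal.sup_mul] at h1
    obtain ⟨x', hx', y', hy', he⟩ := Submodule.mem_sup.1 h1
    obtain ⟨x, hx, hxe⟩ := Ideal.mem_span_singleton_mul.1 hx'
    obtain ⟨y, hy, hye⟩ := Ideal.mem_span_singleton_mul.1 hy'
    exact ⟨x, hx, y, hy, by rw [hxe, hye, he]⟩
  choose x hx y hy hxy using hz'
  obtain ⟨x', hx', hxx⟩ := h x hx fun S => by
    apply hξ S _ (hG.kd_mem hx S)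
    refine Ideal.mem_span_singleton_mul.2 ⟨-kd b y S, neg_mem (hG.kd_mem hy S), ?_⟩
    have h1 : kd b v = fun S => (fun S => ξ * x S) S + (fun S => q * y S) S := funext hxy
    have h2 := congrFun (kd_kd b v) S
    rw [h1, kd_add', kd_smul, kd_smul] at h2
    simp only [Pi.zero_apply] at h2
    linear_combination -h2
  choose x'' hx'' hxx' using fun S => Ideal.mem_span_singleton_mul.1 (hxx S)
  obtain ⟨w, hw, hvw⟩ := h (fun S => v S - ξ * x' S)
    (fun S => sub_mem (hv S) (Ideal.mul_mem_left _ _ (hx' S))) fun S => by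
      refine Ideal.mem_span_singleton_mul.2 ⟨y S + ξ * x'' S,
        add_mem (hy S) (Ideal.mul_mem_left _ _ (hx'' S)), ?_⟩
      rw [kd_sub b v (fun S => ξ * x' S) S, kd_smul]
      have h1 := hxx' S
      have h2 := hxy S
      rw [h2]
      linear_combination ξ * h1
  refine ⟨w, hw, fun S => ?_⟩
  rw [Ideal.sup_mul]
  have h1 : v S - kd b w S = ξ * x' S + (v S - ξ * x' S - kd b w S) := by ring
  rw [h1]
  exact Submodule.add_mem_sup (Ideal.mul_mem_mul (Ideal.mem_span_singleton_self _) (hx' S)) (hvw S)

end abstract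

section

variable (p : ℕ) [hp : Fact p.Prime] {C : Type u} [CommRing C] [CharP C p] [PerfectRing C p]

omit [PerfectRing C p] in
theorem isPerf_perfHull (I : Ideal C) : IsPerf p (perfHull p I) := by
  rintro a ⟨e, he⟩ b ⟨f, hf⟩ i hi c hc
  refine ⟨max e f + 1, ?_⟩
  have h1 := pow_mem_of_le (le_max_left e f) he
  have h2 := pow_mem_of_le (le_max_right e f) hf
  have h3 := Ideal.mul_mem_mul (Ideal.pow_mem_pow h1 i) (Ideal.pow_mem_pow h2 (p - i))
  have h4 : c ^ p ^ (max e f + 1) = (a ^ p ^ max e f) ^ i * (b ^ p ^ max e f) ^ (p - i) := by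
    rw [pow_succ', pow_mul, hc, mul_pow, ← pow_mul, ← pow_mul, ← pow_mul, ← pow_mul,
      mul_comm i, mul_comm (p - i)]
  rw [h4]
  rw [← pow_mul, ← pow_mul, ← pow_add] at h3
  have h5 : p ^ max e f * i + p ^ max e f * (p - i) = p ^ (max e f + 1) := by
    rw [← mul_add, pow_succ]
    congr 1
    omega
  rw [h5] at h3
  exact h3

theorem te_mul_mem_WI {J J' : Ideal C} (hJ : IsPerf p J) {a : C} (h : ∀ x ∈ J, a * x ∈ J')
    {x : WittVector p C} (hx : x ∈ WI p J) : teichmuller p a * x ∈ WI p J' := by
  apply mem_WI_of_coeff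
  intro k
  obtain ⟨c, hc, hce⟩ := coeff_of_mem_WI p hJ hx k
  refine ⟨a * c, h c hc, ?_⟩
  rw [teichmuller_mul_coeff, hce, mul_pow]

theorem isPerf_bot : IsPerf p (⊥ : Ideal C) := by
  intro a ha b hb i hi c hc
  rw [Ideal.mem_bot] at ha hb ⊢
  rw [ha, hb, ← pow_add, Nat.add_sub_cancel' hi, zero_pow hp.out.ne_zero] at hc
  apply pow_inj p
  rw [hc, zero_pow hp.out.ne_zero]

theorem p_reg (x : WittVector p C) (h : (p : WittVector p C) * x = 0) : x = 0 := by
  have h1 : x ∈ WI p (⊥ : Ideal C) := by
    apply mem_of_p_mul_mem p (isPerf_bot p)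
    rw [h]
    exact zero_mem _
  ext k
  obtain ⟨c, hc, hce⟩ := coeff_of_mem_WI p (isPerf_bot p) h1 k
  rw [Ideal.mem_bot] at hc
  rw [hce, hc, zero_pow (pow_ne_zero _ hp.out.ne_zero), WittVector.zero_coeff]

variable {m : ℕ}

theorem stb_WI {a : Fin m → C} {G : Finset (Fin m) → Ideal C} (hG : ∀ S, IsPerf p (G S))
    (hst : Stb a G) : Stb (fun l => teichmuller p (a l)) fun S => WI p (G S) := by
  intro l S hl x hx
  exact te_mul_mem_WI p (hG _) (hst l S hl) hx

theorem exI_p {a : Fin m → C} {G : Finset (Fin m) → Ideal C} (hG : ∀ S, IsPerf p (G S))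
    (hst : Stb a G) (h : Ex a G) :
    ExI (fun l => teichmuller p (a l)) (fun S => WI p (G S))
      (Ideal.span {(p : WittVector p C)}) := by
  intro v hv hz
  obtain ⟨w, hw, hwv⟩ := h (fun S => (v S).coeff 0) (fun S => coeff_zero_mem p (hG S) (hv S)) (by
    funext S
    have h1 := kd_map (WittVector.constantCoeff (p := p) (R := C))
      (fun l => teichmuller p (a l)) v S
    have h2 : (fun l => WittVector.constantCoeff (p := p) (teichmuller p (a l))) = a :=
      funext fun l => teichmuller_coeff_zero p (a l)
    rw [h2] at h1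
    refine h1.symm.trans ?_
    obtain ⟨y, -, hy⟩ := Ideal.mem_span_singleton_mul.1 (hz S)
    rw [← hy]
    exact p_mul_coeff_zero p y)
  refine ⟨fun S => teichmuller p (w S), fun S => te_mem_WI p (hw S), fun S => ?_⟩
  have h1 : v S - kd (fun l => teichmuller p (a l)) (fun S => teichmuller p (w S)) S ∈
      WI p (G S) :=
    sub_mem (hv S) ((stb_WI p hG hst).kd_mem (fun S => te_mem_WI p (hw S)) S)
  obtain ⟨y, hy, he⟩ := exists_p_mul_of_coeff_zero p (hG S) h1 (by
    have h3 : (WittVector.constantCoeff (p := p) (R := C)) (v S -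
        kd (fun l => teichmuller p (a l)) (fun S => teichmuller p (w S)) S) = 0 := by
      rw [map_sub, kd_map]
      have h4 : (fun l => WittVector.constantCoeff (p := p) (teichmuller p (a l))) = a :=
        funext fun l => teichmuller_coeff_zero p (a l)
      have h5 : (fun S => WittVector.constantCoeff (p := p) (teichmuller p (w S))) = w :=
        funext fun S => teichmuller_coeff_zero p (w S)
      rw [h4, h5, hwv]
      exact sub_self _
    exact h3)
  exact Ideal.mem_span_singleton_mul.2 ⟨y, hy, he.symm⟩

theorem xi_reg {J : Ideal C} (hJ : IsPerf p J) {t : C} (ht : t ∈ nonZeroDivisors C) (N : ℕ)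
    {x : WittVector p C} (hx : x ∈ WI p J)
    (h : (p - teichmuller p t) * x ∈ Ideal.span {(p : WittVector p C) ^ N} * WI p J) :
    x ∈ Ideal.span {(p : WittVector p C) ^ N} * WI p J := by
  induction N with
  | zero => rwa [pow_zero, Ideal.span_singleton_one, Ideal.top_mul]
  | succ N ih =>
    obtain ⟨z, hz, hze⟩ := Ideal.mem_span_singleton_mul.1 h
    obtain ⟨x', hx', hxe⟩ := Ideal.mem_span_singleton_mul.1 (ih (by
      refine Ideal.mem_span_singleton_mul.2 ⟨p * z, Ideal.mul_mem_left _ _ hz, ?_⟩
      rw [← hze]; ring))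
    have hinj : ∀ n, ∀ y : WittVector p C, (p : WittVector p C) ^ n * y = 0 → y = 0 := by
      intro n
      induction n with
      | zero => intro y hy; simpa using hy
      | succ n ih =>
        intro y hy
        apply ih
        apply p_reg p
        rw [← hy]; ring
    have h1 : (p - teichmuller p t) * x' = p * z := by
      have h2 : (p : WittVector p C) ^ N * ((p - teichmuller p t) * x' - p * z) = 0 := by
        have h3 : (p : WittVector p C) ^ N * ((p - teichmuller p t) * x' - p * z) =
          (p - teichmuller p t) * (p ^ N * x') - p ^ (N + 1) * z := by ring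
        rw [h3, hxe, hze, sub_self]
      exact sub_eq_zero.1 (hinj _ _ h2)
    have h4 : x'.coeff 0 = 0 := by
      have h5 := congrArg (WittVector.constantCoeff (p := p) (R := C)) h1
      rw [map_mul, map_mul, map_sub, map_natCast, CharP.cast_eq_zero, zero_mul, zero_sub,
        neg_mul, neg_eq_zero] at h5
      have h6 : t * x'.coeff 0 = 0 := by
        rw [← teichmuller_coeff_zero p t]
        exact h5
      exact (mem_nonZeroDivisors_iff_left.1 ht) _ h6
    obtain ⟨y, hy, hye⟩ := exists_p_mul_of_coeff_zero p hJ hx' h4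
    refine Ideal.mem_span_singleton_mul.2 ⟨y, hy, ?_⟩
    rw [← hxe, hye]; ring

theorem exI_WI {a : Fin m → C} {G : Finset (Fin m) → Ideal C} (hG : ∀ S, IsPerf p (G S))
    (hst : Stb a G) (h : Ex a G) {t : C} (ht : t ∈ nonZeroDivisors C) (N : ℕ) :
    ExI (fun l => teichmuller p (a l)) (fun S => WI p (G S))
      (Ideal.span {(p : WittVector p C) - teichmuller p t} ⊔
        Ideal.span {(p : WittVector p C) ^ N}) := by
  refine ExI.sup (stb_WI p hG hst) (ExI.pow (p_reg p) (exI_p p hG hst h) N) ?_
  intro S x hx hz
  exact xi_reg p (hG S) ht N hx hz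

/-- the family of perfect ideals. -/
def JF (P : Ideal C) (a : Fin m → C) (n : ℕ) : Ideal C :=
  perfHull p (P * Ideal.span (Set.range a) ^ n)

omit [PerfectRing C p] in
theorem isPerf_JF (P : Ideal C) (a : Fin m → C) (n : ℕ) : IsPerf p (JF p P a n) :=
  isPerf_perfHull p _

omit [PerfectRing C p] in
theorem mul_mem_JF (P : Ideal C) (a : Fin m → C) (n : ℕ) (l : Fin m) {x : C}
    (hx : x ∈ JF p P a n) : a l * x ∈ JF p P a (n + 1) := by
  have h1 : a l ∈ perfHull p (Ideal.span (Set.range a)) :=
    le_perfHull (Ideal.subset_span ⟨l, rfl⟩)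
  have h2 := mul_mem_perfHull hx h1
  rw [mul_assoc, ← pow_succ] at h2
  rw [mul_comm]
  exact h2

omit [PerfectRing C p] in
theorem stb_JF (P : Ideal C) (a : Fin m → C) (s : ℕ) (hs : m ≤ s) :
    Stb a fun S => JF p P a (s - S.card) := by
  intro l S hl x hx
  have h1 := mul_mem_JF p P a _ l hx
  have h2 : S.card + 1 ≤ m := by
    have h3 := Finset.card_le_univ (insert l S)
    rw [Finset.card_insert_of_notMem hl, Fintype.card_fin] at h3
    exact h3
  have h4 : s - (insert l S).card + 1 = s - S.card := by
    rw [Finset.card_insert_of_notMem hl]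
    omega
  rw [h4] at h1
  exact h1

/-- (KOSW) -/
theorem kosW (P : Ideal C) (hP : P.FG) (a : Fin m → C) (s : ℕ) (hs : m < s) {t : C}
    (ht : t ∈ nonZeroDivisors C) (N : ℕ) :
    ExI (fun l => teichmuller p (a l)) (fun S => WI p (JF p P a (s - S.card)))
      (Ideal.span {(p : WittVector p C) - teichmuller p t} ⊔
        Ideal.span {(p : WittVector p C) ^ N}) :=
  exI_WI p (fun S => isPerf_JF p P a _) (stb_JF p P a s hs.le)
    (fun v hv hz => kos_exact p P hP a s hs v hv hz) ht N

section applications

variable (P : Ideal C) (hP : P.FG) (a : Fin m → C) {t : C} (ht : t ∈ nonZeroDivisors C) (N : ℕ)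

include hP ht

theorem kosW_inj (c : ℕ) (hc : 1 ≤ c) {x : WittVector p C} (hx : x ∈ WI p (JF p P a c))
    (h : ∀ l, teichmuller p (a l) * x ∈ (Ideal.span {(p : WittVector p C) - teichmuller p t} ⊔
        Ideal.span {(p : WittVector p C) ^ N}) * WI p (JF p P a (c + 1))) :
    x ∈ (Ideal.span {(p : WittVector p C) - teichmuller p t} ⊔
        Ideal.span {(p : WittVector p C) ^ N}) * WI p (JF p P a c) := by
  classical
  obtain ⟨w, hw, hvw⟩ := kosW p P hP a (c + m) (by omega) ht N
    (fun S => if S = Finset.univ then x else 0) (fun S => by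
      dsimp only
      split_ifs with hS
      · rw [hS, Finset.card_univ, Fintype.card_fin, Nat.add_sub_cancel]
        exact hx
      · exact zero_mem _) (fun S => by
      refine Ideal.sum_mem _ fun l hl => zsmul_mem ?_ _
      dsimp only
      split_ifs with hS
      · have h2 : S.card + 1 = m := by
          have h3 := congrArg Finset.card hS
          rw [Finset.card_insert_of_notMem (by simpa using hl), Finset.card_univ,
            Fintype.card_fin] at h3
          exact h3
        have h4 : c + m - S.card = c + 1 := by omega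
        rw [h4]
        exact h l
      · rw [mul_zero]; exact zero_mem _)
  have h1 := hvw Finset.univ
  have h2 : kd (fun l => teichmuller p (a l)) w Finset.univ = 0 := by
    unfold kd
    rw [Finset.compl_univ, Finset.sum_empty]
  dsimp only at h1
  rw [h2, if_pos rfl, sub_zero, Finset.card_univ, Fintype.card_fin, Nat.add_sub_cancel] at h1
  exact h1

theorem kosW_sko (s : ℕ) (hs : m < s) {x : WittVector p C} (hx : x ∈ WI p (JF p P a s)) :
    ∃ w : Fin m → WittVector p C, (∀ l, w l ∈ WI p (JF p P a (s - 1))) ∧
      x - ∑ l, teichmuller p (a l) * w l ∈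
        (Ideal.span {(p : WittVector p C) - teichmuller p t} ⊔
        Ideal.span {(p : WittVector p C) ^ N}) * WI p (JF p P a s) := by
  classical
  obtain ⟨w, hw, hvw⟩ := kosW p P hP a s hs ht N
    (fun S => if S = ∅ then x else 0) (fun S => by
      dsimp only
      split_ifs with hS
      · rw [hS, Finset.card_empty, Nat.sub_zero]
        exact hx
      · exact zero_mem _) (fun _ => by
      refine Ideal.sum_mem _ fun l hl => zsmul_mem ?_ _
      dsimp only
      rw [if_neg (Finset.insert_ne_empty _ _), mul_zero]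
      exact zero_mem _)
  refine ⟨fun l => w {l}, fun l => ?_, ?_⟩
  · have h1 := hw {l}
    dsimp only at h1
    rw [Finset.card_singleton] at h1
    exact h1
  · have h1 := hvw ∅
    have h2 : kd (fun l => teichmuller p (a l)) w ∅ = ∑ l, teichmuller p (a l) * w {l} := by
      unfold kd
      rw [Finset.compl_empty]
      refine Finset.sum_congr rfl fun l _ => ?_
      have h3 : ksg l ∅ = 1 := by
        unfold ksg
        simp
      rw [h3, one_smul]
      rfl
    dsimp only at h1
    rw [h2, if_pos rfl, Finset.card_empty, Nat.sub_zero] at h1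
    exact h1

theorem kosW_col (c : ℕ) (hc : 1 ≤ c) (β : Fin m → WittVector p C)
    (hβ : ∀ l, β l ∈ WI p (JF p P a (c + 1)))
    (h : ∀ k l, teichmuller p (a k) * β l - teichmuller p (a l) * β k ∈
      (Ideal.span {(p : WittVector p C) - teichmuller p t} ⊔
        Ideal.span {(p : WittVector p C) ^ N}) * WI p (JF p P a (c + 2))) :
    ∃ x ∈ WI p (JF p P a c), ∀ l, β l - teichmuller p (a l) * x ∈
      (Ideal.span {(p : WittVector p C) - teichmuller p t} ⊔
        Ideal.span {(p : WittVector p C) ^ N}) * WI p (JF p P a (c + 1)) := by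
  classical
  set I : Ideal (WittVector p C) := Ideal.span {(p : WittVector p C) - teichmuller p t} ⊔
        Ideal.span {(p : WittVector p C) ^ N} with hI
  set v : Finset (Fin m) → WittVector p C := fun S =>
    if S.card + 1 = m then ∑ l ∈ Sᶜ, ksg l S • β l else 0 with hv
  have hvS : ∀ (S : Finset (Fin m)) (l : Fin m), l ∉ S → insert l S = Finset.univ →
      v S = ksg l S • β l := by
    intro S l hl hS
    have h2 : S.card + 1 = m := by
      have h3 := congrArg Finset.card hS
      rw [Finset.card_insert_of_notMem hl, Finset.card_univ, Fintype.card_fin] at h3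
      exact h3
    have h4 : Sᶜ = {l} := by
      ext k
      rw [Finset.mem_compl, Finset.mem_singleton]
      constructor
      · intro hk
        have h5 := Finset.mem_univ k
        rw [← hS, Finset.mem_insert] at h5
        exact h5.resolve_right hk
      · rintro rfl
        exact hl
    rw [hv]
    dsimp only
    rw [if_pos h2, h4, Finset.sum_singleton]
  obtain ⟨w, hw, hvw⟩ := kosW p P hP a (c + m) (by omega) ht N v (fun S => by
      rw [hv]
      dsimp only
      split_ifs with hS
      · have h4 : c + m - S.card = c + 1 := by omega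
        rw [h4]
        exact Ideal.sum_mem _ fun l _ => zsmul_mem (hβ l) _
      · exact zero_mem _) (fun S => by
      by_cases hS : S.card + 2 = m
      · have h4 : c + m - S.card = c + 2 := by omega
        dsimp only
        rw [h4]
        have h5 : Sᶜ.card = 2 := by
          rw [Finset.card_compl, Fintype.card_fin]
          omega
        obtain ⟨k, l, hkl, hSc⟩ := Finset.card_eq_two.1 h5
        have hk : k ∉ S := by
          rw [← Finset.mem_compl, hSc]; simp
        have hl : l ∉ S := by
          rw [← Finset.mem_compl, hSc]; simp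
        have hu : insert l (insert k S) = Finset.univ := by
          rw [Finset.eq_univ_iff_forall]
          intro x
          by_cases hx : x ∈ S
          · simp [hx]
          · rw [← Finset.mem_compl, hSc] at hx
            simp only [Finset.mem_insert, Finset.mem_singleton] at hx ⊢
            tauto
        have h6 : v (insert k S) = ksg l (insert k S) • β l :=
          hvS _ l (by simp [hl, Ne.symm hkl]) hu
        have h7 : v (insert l S) = ksg k (insert l S) • β k :=
          hvS _ k (by simp [hk, hkl]) (by rw [Finset.insert_comm]; exact hu)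
        have h8 : kd (fun l => teichmuller p (a l)) v S =
            (ksg k S * ksg l (insert k S)) •
              (teichmuller p (a k) * β l - teichmuller p (a l) * β k) := by
          unfold kd
          rw [hSc, Finset.sum_pair hkl, h6, h7]
          have h9 := kzb_ksg_anti hk hl hkl
          have h10 : ksg l S * ksg k (insert l S) = -(ksg k S * ksg l (insert k S)) := by
            linear_combination h9
          rw [mul_smul_comm, mul_smul_comm, smul_smul, smul_smul, h10, smul_sub, neg_smul,
            sub_eq_add_neg]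
        rw [h8]
        exact zsmul_mem (h k l) _
      · have h0 : kd (fun l => teichmuller p (a l)) v S = 0 := by
          unfold kd
          refine Finset.sum_eq_zero fun l hl => ?_
          have h1 : v (insert l S) = 0 := by
            rw [hv]
            dsimp only
            rw [if_neg]
            rw [Finset.card_insert_of_notMem (by simpa using hl)]
            omega
          rw [h1, mul_zero, smul_zero]
        rw [h0]
        exact zero_mem _)
  refine ⟨w Finset.univ, ?_, fun l => ?_⟩
  · have h1 := hw Finset.univ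
    dsimp only at h1
    rw [Finset.card_univ, Fintype.card_fin, Nat.add_sub_cancel] at h1
    exact h1
  · set S : Finset (Fin m) := Finset.univ.erase l with hS
    have hl : l ∉ S := Finset.notMem_erase l _
    have hu : insert l S = Finset.univ := Finset.insert_erase (Finset.mem_univ l)
    have h2 : S.card + 1 = m := by
      have h3 := congrArg Finset.card hu
      rw [Finset.card_insert_of_notMem hl, Finset.card_univ, Fintype.card_fin] at h3
      exact h3
    have h1 := hvw S
    have h4 : c + m - S.card = c + 1 := by omega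
    have hSc : Sᶜ = {l} := by
      rw [hS]
      ext k
      simp
    have h5 : kd (fun l => teichmuller p (a l)) w S =
        ksg l S • (teichmuller p (a l) * w Finset.univ) := by
      unfold kd
      rw [hSc, Finset.sum_singleton, hu]
    dsimp only at h1
    rw [hvS S l hl hu, h5, h4, ← smul_sub] at h1
    have h6 : ksg l S • ksg l S • (β l - teichmuller p (a l) * w Finset.univ) =
        β l - teichmuller p (a l) * w Finset.univ := by
      rw [smul_smul, kzb_ksg_mul_self, one_smul]
    rw [← h6]
    exact zsmul_mem h1 _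

/-! versions for `b l = u l * [a l]`, `u l * u l = 1` (signs) -/

theorem kosW_inj_sign (u : Fin m → WittVector p C) (hu : ∀ l, u l * u l = 1) (c : ℕ) (hc : 1 ≤ c)
    {x : WittVector p C} (hx : x ∈ WI p (JF p P a c))
    (h : ∀ l, (u l * teichmuller p (a l)) * x ∈
      (Ideal.span {(p : WittVector p C) - teichmuller p t} ⊔
        Ideal.span {(p : WittVector p C) ^ N}) * WI p (JF p P a (c + 1))) :
    x ∈ (Ideal.span {(p : WittVector p C) - teichmuller p t} ⊔
        Ideal.span {(p : WittVector p C) ^ N}) * WI p (JF p P a c) := by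
  refine kosW_inj p P hP a ht N c hc hx fun l => ?_
  have h1 := Ideal.mul_mem_left _ (u l) (h l)
  have h2 : u l * (u l * teichmuller p (a l) * x) = teichmuller p (a l) * x := by
    linear_combination (teichmuller p (a l) * x) * hu l
  rwa [h2] at h1

theorem kosW_sko_sign (u : Fin m → WittVector p C) (hu : ∀ l, u l * u l = 1) (s : ℕ) (hs : m < s)
    {x : WittVector p C} (hx : x ∈ WI p (JF p P a s)) :
    ∃ w : Fin m → WittVector p C, (∀ l, w l ∈ WI p (JF p P a (s - 1))) ∧
      x - ∑ l, (u l * teichmuller p (a l)) * w l ∈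
        (Ideal.span {(p : WittVector p C) - teichmuller p t} ⊔
        Ideal.span {(p : WittVector p C) ^ N}) * WI p (JF p P a s) := by
  obtain ⟨w, hw, hx'⟩ := kosW_sko p P hP a ht N s hs hx
  refine ⟨fun l => u l * w l, fun l => Ideal.mul_mem_left _ _ (hw l), ?_⟩
  have h2 : ∑ l, (u l * teichmuller p (a l)) * (u l * w l) = ∑ l, teichmuller p (a l) * w l :=
    Finset.sum_congr rfl fun l _ => by linear_combination (teichmuller p (a l) * w l) * hu l
  rw [h2]
  exact hx'

theorem kosW_col_sign (u : Fin m → WittVector p C) (hu : ∀ l, u l * u l = 1) (c : ℕ) (hc : 1 ≤ c)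
    (β : Fin m → WittVector p C) (hβ : ∀ l, β l ∈ WI p (JF p P a (c + 1)))
    (h : ∀ k l, (u k * teichmuller p (a k)) * β l - (u l * teichmuller p (a l)) * β k ∈
      (Ideal.span {(p : WittVector p C) - teichmuller p t} ⊔
        Ideal.span {(p : WittVector p C) ^ N}) * WI p (JF p P a (c + 2))) :
    ∃ x ∈ WI p (JF p P a c), ∀ l, β l - (u l * teichmuller p (a l)) * x ∈
      (Ideal.span {(p : WittVector p C) - teichmuller p t} ⊔
        Ideal.span {(p : WittVector p C) ^ N}) * WI p (JF p P a (c + 1)) := by
  obtain ⟨x, hx, hxx⟩ := kosW_col p P hP a ht N c hc (fun l => u l * β l)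
    (fun l => Ideal.mul_mem_left _ _ (hβ l)) fun k l => by
      have h1 := Ideal.mul_mem_left _ (u k * u l) (h k l)
      have h2 : u k * u l * ((u k * teichmuller p (a k)) * β l - (u l * teichmuller p (a l)) * β k)
          = teichmuller p (a k) * (u l * β l) - teichmuller p (a l) * (u k * β k) := by
        linear_combination (teichmuller p (a k) * (u l * β l)) * hu k -
          (teichmuller p (a l) * (u k * β k)) * hu l
      rwa [h2] at h1
  refine ⟨x, hx, fun l => ?_⟩
  have h1 := Ideal.mul_mem_left _ (u l) (hxx l)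
  have h2 : u l * (u l * β l - teichmuller p (a l) * x) = β l - (u l * teichmuller p (a l)) * x := by
    linear_combination (β l) * hu l
  rwa [h2] at h1

end applications

end

end Vale.Agent.P177.PI
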