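import Mathlib.RingTheory.WittVector.Complete
import Mathlib.RingTheory.WittVector.TeichmullerSeries

/-!
P177, perfect ideals: `J ⊆ C` (perfect of characteristic `p`) closed under
`a^(i/p) b^((p-i)/p)` lifts to the ideal `WI J` of `W(C)`, the `p`-adic closure of the ideal
generated by the Teichmueller elements `[c]`, `c ∈ J`; `W(C) / WI J` has no `p`-torsion and
`WI J` reduces to `J`.
-/

namespace Vale.Agent.P177.PI

open WittVector

universe u

section

variable (p : ℕ) [hp : Fact p.Prime] {C : Type u} [CommRing C]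

/-- perfect ideals: closed under `a^(i/p) b^((p-i)/p)`. -/
def IsPerf (J : Ideal C) : Prop :=
  ∀ a ∈ J, ∀ b ∈ J, ∀ i ≤ p, ∀ c : C, c ^ p = a ^ i * b ^ (p - i) → c ∈ J

/-- the ideal generated by the Teichmueller elements of `J`. -/
noncomputable def TI (J : Ideal C) : Ideal (WittVector p C) :=
  Ideal.span ((fun c => teichmuller p c) '' (J : Set C))

/-- `TI J + p ^ N W(C)`. -/
noncomputable def TN (J : Ideal C) (N : ℕ) : Ideal (WittVector p C) :=
  TI p J ⊔ Ideal.span {(p : WittVector p C) ^ N}

/-- the lift of `J`: the `p`-adic closure of `TI J`. -/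
noncomputable def WI (J : Ideal C) : Ideal (WittVector p C) := ⨅ N, TN p J N

theorem mem_WI {J : Ideal C} {x : WittVector p C} : x ∈ WI p J ↔ ∀ N, x ∈ TN p J N := by
  unfold WI
  exact Submodule.mem_iInf _

theorem te_mem_TI {J : Ideal C} {c : C} (hc : c ∈ J) : teichmuller p c ∈ TI p J :=
  Ideal.subset_span ⟨c, hc, rfl⟩

theorem TI_le_TN (J : Ideal C) (N : ℕ) : TI p J ≤ TN p J N := le_sup_left

theorem TI_le_WI (J : Ideal C) : TI p J ≤ WI p J := le_iInf fun N => TI_le_TN p J N

theorem te_mem_WI {J : Ideal C} {c : C} (hc : c ∈ J) : teichmuller p c ∈ WI p J :=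
  TI_le_WI p J (te_mem_TI p hc)

theorem p_pow_mem_TN (J : Ideal C) (N : ℕ) (x : WittVector p C) :
    (p : WittVector p C) ^ N * x ∈ TN p J N :=
  Ideal.mul_mem_right _ _ ((le_sup_right : _ ≤ TN p J N) (Ideal.mem_span_singleton_self _))

theorem mem_TN_iff {J : Ideal C} {N : ℕ} {x : WittVector p C} :
    x ∈ TN p J N ↔ ∃ y ∈ TI p J, ∃ z, x = y + (p : WittVector p C) ^ N * z := by
  unfold TN
  rw [Submodule.mem_sup]
  constructor
  · rintro ⟨y, hy, w, hw, rfl⟩
    rw [Ideal.mem_span_singleton'] at hw
    obtain ⟨z, rfl⟩ := hw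
    exact ⟨y, hy, z, by rw [mul_comm]⟩
  · rintro ⟨y, hy, z, rfl⟩
    exact ⟨y, hy, _, Ideal.mul_mem_right _ _ (Ideal.mem_span_singleton_self _), rfl⟩

theorem WI_mono {J J' : Ideal C} (h : J ≤ J') : WI p J ≤ WI p J' := by
  have h1 : TI p J ≤ TI p J' := Ideal.span_mono (Set.image_mono h)
  exact iInf_mono fun N => sup_le_sup_right h1 _

end

section

variable (p : ℕ) [hp : Fact p.Prime] {C : Type u} [CommRing C] [CharP C p] [PerfectRing C p]

/-- the `p ^ e`-th root. -/
noncomputable def rt (e : ℕ) (c : C) : C := (iterateFrobeniusEquiv C p e).symm c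

theorem rt_pow (e : ℕ) (c : C) : rt p e c ^ p ^ e = c := by
  rw [rt, ← iterateFrobenius_def, ← coe_iterateFrobeniusEquiv]
  exact RingEquiv.apply_symm_apply _ _

theorem pow_inj {a b : C} (h : a ^ p = b ^ p) : a = b := by
  apply (_root_.frobeniusEquiv C p).injective
  rw [_root_.frobeniusEquiv_apply, _root_.frobeniusEquiv_apply, frobenius_def, frobenius_def, h]

theorem rt_succ_pow (e : ℕ) (c : C) : rt p (e + 1) c ^ p = rt p e c := by
  have h : (rt p (e + 1) c ^ p) ^ p ^ e = rt p e c ^ p ^ e := by
    rw [rt_pow, ← pow_mul, ← pow_succ', rt_pow]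
  apply (iterateFrobeniusEquiv C p e).injective
  rw [coe_iterateFrobeniusEquiv, iterateFrobenius_def, iterateFrobenius_def, h]

variable {p} in
/-- iterated geometric means. -/
theorem IsPerf.mean {J : Ideal C} (hJ : IsPerf p J) {a b : C} (ha : a ∈ J) (hb : b ∈ J)
    (n j : ℕ) (hj : j ≤ p ^ n) : rt p n a ^ j * rt p n b ^ (p ^ n - j) ∈ J := by
  induction n generalizing j with
  | zero =>
    rw [pow_zero] at hj ⊢
    have h0 : ∀ c : C, rt p 0 c = c := fun c => by
      have := rt_pow p 0 c
      rwa [pow_zero, pow_one] at this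
    rw [h0, h0]
    interval_cases j
    · simpa using hb
    · simpa using ha
  | succ n ih =>
    have hp0 : 0 < p := hp.out.pos
    obtain ⟨q, r, hr, rfl⟩ : ∃ q r, r < p ∧ j = p * q + r :=
      ⟨j / p, j % p, Nat.mod_lt _ hp0, (Nat.div_add_mod j p).symm⟩
    rcases Nat.eq_zero_or_pos r with rfl | hr0
    · have hq : q ≤ p ^ n := by
        rw [add_zero, pow_succ'] at hj
        exact Nat.le_of_mul_le_mul_left hj hp0
      have h1 := ih q hq
      have h2 : rt p (n + 1) a ^ (p * q + 0) * rt p (n + 1) b ^ (p ^ (n + 1) - (p * q + 0)) =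
          rt p n a ^ q * rt p n b ^ (p ^ n - q) := by
        rw [add_zero, pow_mul, rt_succ_pow, pow_succ', ← Nat.mul_sub, pow_mul, rt_succ_pow]
      rw [h2]
      exact h1
    · have hq : q < p ^ n := by
        by_contra hcon
        push Not at hcon
        have : p ^ (n + 1) ≤ p * q := by
          rw [pow_succ']
          exact Nat.mul_le_mul_left p hcon
        omega
      have hu := ih q hq.le
      have hv := ih (q + 1) hq
      refine hJ _ hv _ hu r hr.le _ ?_
      obtain ⟨m, hm⟩ : ∃ m, p ^ n = q + 1 + m := ⟨p ^ n - (q + 1), by omega⟩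
      obtain ⟨s, hs⟩ : ∃ s, p = r + s := ⟨p - r, by omega⟩
      have e1 : p ^ n - q = m + 1 := by omega
      have e2 : p ^ n - (q + 1) = m := by omega
      have e3 : p - r = s := by omega
      have e4 : p ^ (n + 1) - (p * q + r) = p * m + s := by
        rw [pow_succ', hm]
        have : p * (q + 1 + m) = p * q + p + p * m := by ring
        omega
      rw [e1, e2, e3, e4, mul_pow, ← pow_mul, ← pow_mul, mul_comm (p * q + r) p,
        mul_comm (p * m + s) p, pow_mul, pow_mul, rt_succ_pow, rt_succ_pow]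
      rw [mul_pow, mul_pow, ← pow_mul, ← pow_mul, ← pow_mul, ← pow_mul]
      have h5 : (p * q + r) = (q + 1) * r + q * s := by
        have : p * q = (r + s) * q := by rw [← hs]
        rw [this]; ring
      have h6 : p * m + s = m * r + (m + 1) * s := by
        have : p * m = (r + s) * m := by rw [← hs]
        rw [this]; ring
      rw [h5, h6]
      ring

/-- Lemma A: the carry of `[a] + [b]` lies in `WI J`. -/
theorem exists_carry {J : Ideal C} (hJ : IsPerf p J) {a b : C} (ha : a ∈ J) (hb : b ∈ J) :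
    ∃ c ∈ WI p J, teichmuller p a + teichmuller p b =
      teichmuller p (a + b) + (p : WittVector p C) * c := by
  have hp0 : 0 < p := hp.out.pos
  -- existence of `c`
  obtain ⟨c, hc⟩ : ∃ c : WittVector p C, teichmuller p a + teichmuller p b -
      teichmuller p (a + b) = (p : WittVector p C) * c := by
    have h1 : (teichmuller p a + teichmuller p b - teichmuller p (a + b)).coeff 0 = 0 := by
      have h2 : WittVector.constantCoeff
          (teichmuller p a + teichmuller p b - teichmuller p (a + b)) = 0 := by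
        rw [map_sub, map_add]
        change (teichmuller p a).coeff 0 + (teichmuller p b).coeff 0 -
          (teichmuller p (a + b)).coeff 0 = 0
        rw [teichmuller_coeff_zero, teichmuller_coeff_zero, teichmuller_coeff_zero, sub_self]
      exact h2
    rw [← WittVector.mem_span_p_iff_coeff_zero_eq_zero, Ideal.mem_span_singleton'] at h1
    obtain ⟨y, hy⟩ := h1
    exact ⟨y, by rw [← hy, mul_comm]⟩
  refine ⟨c, (mem_WI p).2 fun n => ?_, by rw [← hc]; ring⟩
  set α := rt p n a with hα
  set β := rt p n b with hβ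
  -- `([α] + [β]) ^ (p ^ n) ≡ [a + b] mod p ^ (n + 1)`
  have h3 : (p : WittVector p C) ∣ (teichmuller p α + teichmuller p β) -
      teichmuller p (α + β) := by
    have h1 : (teichmuller p α + teichmuller p β - teichmuller p (α + β)).coeff 0 = 0 := by
      have h2 : WittVector.constantCoeff
          (teichmuller p α + teichmuller p β - teichmuller p (α + β)) = 0 := by
        rw [map_sub, map_add]
        change (teichmuller p α).coeff 0 + (teichmuller p β).coeff 0 -
          (teichmuller p (α + β)).coeff 0 = 0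
        rw [teichmuller_coeff_zero, teichmuller_coeff_zero, teichmuller_coeff_zero, sub_self]
      exact h2
    rw [← WittVector.mem_span_p_iff_coeff_zero_eq_zero, Ideal.mem_span_singleton] at h1
    exact h1
  have h4 := dvd_sub_pow_of_dvd_sub h3 n
  rw [← map_pow (teichmuller p), show (α + β) ^ p ^ n = a + b by
    rw [add_pow_char_pow, hα, hβ, rt_pow, rt_pow]] at h4
  obtain ⟨w, hw⟩ := h4
  -- the binomial expansion
  rcases Nat.eq_zero_or_pos n with hn | hn
  · subst hn
    unfold TN
    rw [pow_zero, Ideal.span_singleton_one, sup_top_eq]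
    trivial
  obtain ⟨M, hM⟩ : ∃ M, p ^ n = M + 1 :=
    ⟨p ^ n - 1, by have := Nat.one_le_pow n p hp0; omega⟩
  have h5 : ∀ i ∈ Finset.range M, ∃ s ∈ TI p J, teichmuller p α ^ (i + 1) *
      teichmuller p β ^ (p ^ n - (i + 1)) * ((p ^ n).choose (i + 1) : WittVector p C) =
        (p : WittVector p C) * s := by
    intro i hi
    rw [Finset.mem_range] at hi
    obtain ⟨k, hk⟩ := hp.out.dvd_choose_pow (n := n) (k := i + 1) (by omega) (by omega)
    refine ⟨teichmuller p (α ^ (i + 1) * β ^ (p ^ n - (i + 1))) * (k : WittVector p C), ?_, ?_⟩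
    · exact Ideal.mul_mem_right _ _ (te_mem_TI p (hJ.mean ha hb n (i + 1) (by omega)))
    · rw [hk, map_mul, map_pow, map_pow]
      push_cast
      ring
  obtain ⟨S, hS, hSe⟩ : ∃ S ∈ TI p J, ∑ i ∈ Finset.range M, teichmuller p α ^ (i + 1) *
      teichmuller p β ^ (p ^ n - (i + 1)) * ((p ^ n).choose (i + 1) : WittVector p C) =
        (p : WittVector p C) * S := by
    choose! s hs hs' using h5
    refine ⟨∑ i ∈ Finset.range M, s i, Ideal.sum_mem _ hs, ?_⟩
    rw [Finset.mul_sum]
    exact Finset.sum_congr rfl hs'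
  have h6 : (teichmuller p α + teichmuller p β) ^ p ^ n = (p : WittVector p C) * S +
      teichmuller p b + teichmuller p a := by
    have h7 : teichmuller p α ^ p ^ n = teichmuller p a := by rw [← map_pow, hα, rt_pow]
    have h8 : teichmuller p β ^ p ^ n = teichmuller p b := by rw [← map_pow, hβ, rt_pow]
    rw [add_pow]
    have h9 : p ^ n + 1 = (M + 1) + 1 := by rw [hM]
    rw [h9, Finset.sum_range_succ, Finset.sum_range_succ', hSe, ← hM, h7]
    simp only [pow_zero, Nat.sub_zero, Nat.choose_zero_right, Nat.choose_self, Nat.cast_one,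
      mul_one, one_mul, h8, Nat.sub_self]
  rw [h6] at hw
  have h7 : (p : WittVector p C) * c = (p : WittVector p C) * (-S + p ^ n * w) := by
    rw [← hc]
    have h10 : (p : WittVector p C) ^ (n + 1) = p * p ^ n := pow_succ' _ _
    rw [h10] at hw
    linear_combination hw
  have h8 : c = -S + p ^ n * w := by
    have h9 : (c - (-S + p ^ n * w)) * (p : WittVector p C) = 0 := by
      linear_combination h7
    exact sub_eq_zero.1 (WittVector.eq_zero_of_p_mul_eq_zero _ h9)
  rw [h8, mem_TN_iff]
  exact ⟨-S, neg_mem hS, w, rfl⟩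

/-- the structure of `TI J`. -/
theorem exists_of_mem_TI {J : Ideal C} (hJ : IsPerf p J) {x : WittVector p C} (hx : x ∈ TI p J) :
    x.coeff 0 ∈ J ∧ ∃ y ∈ WI p J, x = teichmuller p (x.coeff 0) + (p : WittVector p C) * y := by
  refine Submodule.span_induction (p := fun x _ => x.coeff 0 ∈ J ∧ ∃ y ∈ WI p J,
    x = teichmuller p (x.coeff 0) + (p : WittVector p C) * y) ?_ ?_ ?_ ?_ hx
  · rintro _ ⟨c, hc, rfl⟩
    have h0 : (teichmuller p c).coeff 0 = c := teichmuller_coeff_zero p c
    simp only [h0]
    exact ⟨hc, 0, zero_mem _, by rw [mul_zero, add_zero]⟩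
  · have h0 : (0 : WittVector p C).coeff 0 = 0 := WittVector.zero_coeff p C 0
    rw [h0, WittVector.teichmuller_zero]
    exact ⟨zero_mem _, 0, zero_mem _, by rw [mul_zero, add_zero]⟩
  · rintro x y - - ⟨hx0, x', hx', hxe⟩ ⟨hy0, y', hy', hye⟩
    have h0 : (x + y).coeff 0 = x.coeff 0 + y.coeff 0 :=
      map_add (WittVector.constantCoeff (p := p) (R := C)) x y
    rw [h0]
    obtain ⟨c, hc, hce⟩ := exists_carry p hJ hx0 hy0
    refine ⟨add_mem hx0 hy0, c + x' + y', add_mem (add_mem hc hx') hy', ?_⟩
    generalize x.coeff 0 = a at *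
    generalize y.coeff 0 = b at *
    rw [hxe, hye]
    linear_combination hce
  · rintro w x - ⟨hx0, x', hx', hxe⟩
    rw [smul_eq_mul]
    have h0 : (w * x).coeff 0 = w.coeff 0 * x.coeff 0 :=
      map_mul (WittVector.constantCoeff (p := p) (R := C)) w x
    obtain ⟨w', hw'⟩ : ∃ w', w = teichmuller p (w.coeff 0) + (p : WittVector p C) * w' := by
      have h1 : (w - teichmuller p (w.coeff 0)).coeff 0 = 0 := by
        have h2 : WittVector.constantCoeff (w - teichmuller p (w.coeff 0)) = 0 := by
          rw [map_sub]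
          change w.coeff 0 - (teichmuller p (w.coeff 0)).coeff 0 = 0
          rw [teichmuller_coeff_zero, sub_self]
        exact h2
      rw [← WittVector.mem_span_p_iff_coeff_zero_eq_zero, Ideal.mem_span_singleton'] at h1
      obtain ⟨y, hy⟩ := h1
      exact ⟨y, by linear_combination -hy⟩
    rw [h0]
    refine ⟨Ideal.mul_mem_left _ _ hx0, teichmuller p (w.coeff 0) * x' +
      w' * (teichmuller p (x.coeff 0) + p * x'), ?_, ?_⟩
    · exact add_mem (Ideal.mul_mem_left _ _ hx') (Ideal.mul_mem_left _ _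
        (add_mem (te_mem_WI p hx0) (Ideal.mul_mem_left _ _ hx')))
    · rw [map_mul]
      generalize x.coeff 0 = a at *
      generalize w.coeff 0 = b at *
      rw [hxe, hw']
      ring

theorem exists_of_mem_WI {J : Ideal C} (hJ : IsPerf p J) {x : WittVector p C} (hx : x ∈ WI p J) :
    x.coeff 0 ∈ J ∧ ∃ y ∈ WI p J, x = teichmuller p (x.coeff 0) + (p : WittVector p C) * y := by
  -- the element `y`
  obtain ⟨y, hy⟩ : ∃ y, x = teichmuller p (x.coeff 0) + (p : WittVector p C) * y := by
    have h1 : (x - teichmuller p (x.coeff 0)).coeff 0 = 0 := by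
      have h2 : WittVector.constantCoeff (x - teichmuller p (x.coeff 0)) = 0 := by
        rw [map_sub]
        change x.coeff 0 - (teichmuller p (x.coeff 0)).coeff 0 = 0
        rw [teichmuller_coeff_zero, sub_self]
      exact h2
    rw [← WittVector.mem_span_p_iff_coeff_zero_eq_zero, Ideal.mem_span_singleton'] at h1
    obtain ⟨y, hy⟩ := h1
    exact ⟨y, by linear_combination -hy⟩
  have key : ∀ N, x.coeff 0 ∈ J ∧ y ∈ TN p J N := by
    intro N
    obtain ⟨z, hz, w, hw⟩ := (mem_TN_iff p).1 ((mem_WI p).1 hx (N + 1))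
    obtain ⟨hz0, z', hz', hze⟩ := exists_of_mem_TI p hJ hz
    have h0 : x.coeff 0 = z.coeff 0 := by
      have h1 : WittVector.constantCoeff x = WittVector.constantCoeff z := by
        rw [hw, map_add, map_mul, map_pow, map_natCast, CharP.cast_eq_zero, zero_pow (by omega),
          zero_mul, add_zero]
      exact h1
    refine ⟨h0 ▸ hz0, ?_⟩
    have h2 : y = z' + p ^ N * w := by
      have h3 : (y - (z' + p ^ N * w)) * (p : WittVector p C) = 0 := by
        rw [h0] at hy
        generalize z.coeff 0 = a at *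
        have h4 : (p : WittVector p C) ^ (N + 1) = p * p ^ N := pow_succ' _ _
        rw [h4] at hw
        linear_combination -hy + hw + hze
      exact sub_eq_zero.1 (WittVector.eq_zero_of_p_mul_eq_zero _ h3)
    rw [h2]
    exact add_mem ((mem_WI p).1 hz' N) (p_pow_mem_TN p J N w)
  exact ⟨(key 0).1, y, (mem_WI p).2 fun N => (key N).2, hy⟩

/-- the reduction of `WI J` is `J`. -/
theorem coeff_zero_mem {J : Ideal C} (hJ : IsPerf p J) {x : WittVector p C} (hx : x ∈ WI p J) :
    x.coeff 0 ∈ J := (exists_of_mem_WI p hJ hx).1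

/-- `W(C) / WI J` has no `p`-torsion. -/
theorem mem_of_p_mul_mem {J : Ideal C} (hJ : IsPerf p J) {x : WittVector p C}
    (hx : (p : WittVector p C) * x ∈ WI p J) : x ∈ WI p J := by
  obtain ⟨-, y, hy, he⟩ := exists_of_mem_WI p hJ hx
  have h0 : ((p : WittVector p C) * x).coeff 0 = 0 := by
    have h1 : WittVector.constantCoeff ((p : WittVector p C) * x) = 0 := by
      rw [map_mul, map_natCast, CharP.cast_eq_zero, zero_mul]
    exact h1
  rw [h0, WittVector.teichmuller_zero, zero_add] at he
  have h2 : x = y := by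
    have h3 : (x - y) * (p : WittVector p C) = 0 := by linear_combination he
    exact sub_eq_zero.1 (WittVector.eq_zero_of_p_mul_eq_zero _ h3)
  rw [h2]
  exact hy

theorem mem_of_p_pow_mul_mem {J : Ideal C} (hJ : IsPerf p J) (n : ℕ) {x : WittVector p C}
    (hx : (p : WittVector p C) ^ n * x ∈ WI p J) : x ∈ WI p J := by
  induction n with
  | zero => rwa [pow_zero, one_mul] at hx
  | succ n ih =>
    apply ih
    apply mem_of_p_mul_mem p hJ
    have : (p : WittVector p C) ^ (n + 1) * x = p * (p ^ n * x) := by ring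
    rwa [this] at hx

/-- an element of `WI J` with vanishing reduction is `p` times an element of `WI J`. -/
theorem exists_p_mul_of_coeff_zero {J : Ideal C} (hJ : IsPerf p J) {x : WittVector p C}
    (hx : x ∈ WI p J) (h0 : x.coeff 0 = 0) : ∃ y ∈ WI p J, x = (p : WittVector p C) * y := by
  obtain ⟨-, y, hy, he⟩ := exists_of_mem_WI p hJ hx
  exact ⟨y, hy, by rw [he, h0, WittVector.teichmuller_zero, zero_add]⟩

end

end Vale.Agent.P177.PI
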