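import Vale.Agent.P177.PI.ChoiceA
import Vale.Agent.P177.OEndC
import Vale.Agent.P177.EPres
import Vale.Agent.P177.EWitt
import Vale.Agent.P177.CPs
import Vale.Agent.P177.CohenSurj

/-!
Block CHOICE: the power series ring over the Witt vectors over which a complete intersection in a
complete regular local ring of mixed characteristic is finite and free.
-/

namespace Vale.Agent.P177

open IsLocalRing RingTheory.Sequence Function

universe u

/-- The Witt vector power series ring is a regular local ring. -/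
theorem ch_regular (k : Type u) [Field k] (p : ℕ) [Fact p.Prime] [CharP k p] [PerfectRing k p]
    (n : ℕ) : ∃ _ : IsRegularLocalRing (MvPowerSeries (Fin n) (WittVector p k)),
      ringKrullDim (MvPowerSeries (Fin n) (WittVector p k)) = ((n + 1 : ℕ) : WithBot ℕ∞) ∧
      maximalIdeal (MvPowerSeries (Fin n) (WittVector p k)) =
        Ideal.span ({(p : MvPowerSeries (Fin n) (WittVector p k))} ∪
          Set.range MvPowerSeries.X) := by
  obtain ⟨hreg, hmax, hdim⟩ := witt_dim_one k p
  obtain ⟨h1, h2⟩ := mvPowerSeries_regular (A := WittVector p k) n (Equiv.refl (Fin n)) hdim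
  refine ⟨h1, ?_, ?_⟩
  · rw [h2, add_comm]
  · rw [mvPowerSeries_maximalIdeal_gen, hmax, Ideal.map_span, Set.image_singleton, map_natCast,
      Ideal.span_union]

/-- Evaluation homomorphisms with prescribed constants. -/
theorem ch_evalHom {W R : Type*} [CommRing W] [CommRing R] (I : Ideal R) [IsAdicComplete I R]
    (σ : W →+* R) {n : ℕ} (x : Fin n → R) (hx : ∀ i, x i ∈ I) :
    ∃ ι : MvPowerSeries (Fin n) W →+* R, (∀ w, ι (MvPowerSeries.C w) = σ w) ∧
      ∀ i, ι (MvPowerSeries.X i) = x i := by
  obtain ⟨φ, hφ⟩ := exists_evalHom I σ x hx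
  refine ⟨φ, fun w => ?_, fun i => ?_⟩
  · rw [← MvPolynomial.coe_C, hφ]
    simp
  · rw [← MvPolynomial.coe_X, hφ]
    simp

/-- Every power of the maximal ideal of a quotient is covered by a span. -/
theorem ch_pow_le {A : Type*} [CommRing A] [IsLocalRing A] (I : Ideal A)
    [IsLocalRing (A ⧸ I)] {ι : Type*} (x : ι → A ⧸ I) (u : ι → A)
    (hu : ∀ i, Ideal.Quotient.mk I (u i) = x i) {M : ℕ}
    (hM : maximalIdeal (A ⧸ I) ^ M ≤ Ideal.span (Set.range x)) :
    maximalIdeal A ^ M ≤ I ⊔ Ideal.span (Set.range u) := by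
  intro z hz
  have hl : IsLocalHom (Ideal.Quotient.mk I) :=
    IsLocalHom.of_surjective _ Ideal.Quotient.mk_surjective
  have h3 : Ideal.Quotient.mk I z ∈ maximalIdeal (A ⧸ I) ^ M := by
    have h4 : (maximalIdeal A).map (Ideal.Quotient.mk I) ≤ maximalIdeal (A ⧸ I) := by
      rw [Ideal.map_le_iff_le_comap]
      intro y hy
      rw [Ideal.mem_comap, mem_maximalIdeal, mem_nonunits_iff]
      intro h
      exact (mem_maximalIdeal _).1 hy (isUnit_of_map_unit (Ideal.Quotient.mk I) y h)
    have h5 := Ideal.mem_map_of_mem (Ideal.Quotient.mk I) hz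
    rw [Ideal.map_pow] at h5
    exact Ideal.pow_right_mono h4 M h5
  have h6 := hM h3
  have h7 : Ideal.span (Set.range x) =
      (Ideal.span (Set.range u)).map (Ideal.Quotient.mk I) := by
    rw [Ideal.map_span, ← Set.range_comp]
    congr 2
    funext i
    exact (hu i).symm
  rw [h7, Ideal.mem_map_iff_of_surjective _ Ideal.Quotient.mk_surjective] at h6
  obtain ⟨y, hy, hyz⟩ := h6
  rw [Ideal.Quotient.eq] at hyz
  have h8 : z = -(y - z) + y := by ring
  rw [h8]
  exact add_mem (Ideal.mem_sup_left (neg_mem hyz)) (Ideal.mem_sup_right hy)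

/-- **CHOICE.** The power series ring over the Witt vectors over which a complete intersection of
dimension `r + 1` in a complete regular local ring of mixed characteristic is finite. -/
theorem exists_choice_succ (p : ℕ) [Fact p.Prime] {R : Type u} [CommRing R]
    [IsRegularLocalRing R]
    [IsAdicComplete (maximalIdeal R) R] [CharP (ResidueField R) p]
    [PerfectRing (ResidueField R) p] {d r : ℕ} (hd : ringKrullDim R = d) (hs : List R)
    (hm : ∀ h ∈ hs, h ∈ maximalIdeal R) (hreg : IsWeaklyRegular R (hs ++ [(p : R)]))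
    (hlen : hs.length + (r + 1) = d)
    (hdim : ringKrullDim (R ⧸ Ideal.ofList hs) = ((r + 1 : ℕ) : WithBot ℕ∞)) :
    ∃ ι : MvPowerSeries (Fin r) (WittVector p (ResidueField R)) →+* R,
      (∀ w, residue R (ι (MvPowerSeries.C w)) = w.coeff 0) ∧
      (∀ i, ι (MvPowerSeries.X i) ∈ maximalIdeal R) ∧
      ((Ideal.Quotient.mk (Ideal.ofList hs)).comp ι).Finite ∧
      (∃ M : ℕ, maximalIdeal R ^ M ≤ Ideal.ofList hs ⊔ (Ideal.span {(p : R)} ⊔
        Ideal.span (Set.range fun i => ι (MvPowerSeries.X i)))) ∧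
      IsWeaklyRegular R (hs ++ ((p : R) :: List.ofFn fun i => ι (MvPowerSeries.X i))) := by
  have hle : Ideal.ofList hs ≤ maximalIdeal R := Ideal.span_le.2 fun h hh => hm h hh
  have hnt : Nontrivial (R ⧸ Ideal.ofList hs) := Ideal.Quotient.nontrivial_iff.2 fun h =>
    (maximalIdeal.isMaximal R).ne_top (top_le_iff.1 (h ▸ hle))
  have hloc : IsLocalRing (R ⧸ Ideal.ofList hs) :=
    IsLocalRing.of_surjective' (Ideal.Quotient.mk _) Ideal.Quotient.mk_surjective
  have hlh : IsLocalHom (Ideal.Quotient.mk (Ideal.ofList hs)) :=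
    IsLocalHom.of_surjective _ Ideal.Quotient.mk_surjective
  have hpm : (p : R) ∈ maximalIdeal R := by
    rw [← residue_eq_zero_iff, map_natCast]
    exact CharP.cast_eq_zero _ _
  have hmk : ∀ x ∈ maximalIdeal R,
      Ideal.Quotient.mk (Ideal.ofList hs) x ∈ maximalIdeal (R ⧸ Ideal.ofList hs) := by
    intro x hx
    rw [mem_maximalIdeal, mem_nonunits_iff]
    intro h
    exact (mem_maximalIdeal _).1 hx (isUnit_of_map_unit _ x h)
  have hpreg : IsSMulRegular (R ⧸ (Ideal.ofList hs • ⊤ : Submodule R R)) (p : R) :=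
    (isWeaklyRegular_singleton_iff _ _).1 ((isWeaklyRegular_append_iff _ _ _).1 hreg).2
  have hpA : (p : R ⧸ Ideal.ofList hs) ∈ nonZeroDivisors (R ⧸ Ideal.ofList hs) := by
    rw [mem_nonZeroDivisors_iff_right]
    intro y hy
    have heq : (Ideal.ofList hs • ⊤ : Submodule R R) = Ideal.ofList hs := by
      rw [smul_eq_mul, Ideal.mul_top]
    have h1 : IsSMulRegular (R ⧸ Ideal.ofList hs) (p : R) :=
      (LinearEquiv.isSMulRegular_congr (Submodule.quotEquivOfEq _ _ heq) _).1 hpreg
    refine h1.right_eq_zero_of_smul ?_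
    rw [Algebra.smul_def, map_natCast, mul_comm]
    exact hy
  obtain ⟨hlocB, hdimB⟩ := ch_dim_quot (p : R ⧸ Ideal.ofList hs) hpA
    (by rw [← map_natCast (Ideal.Quotient.mk (Ideal.ofList hs))]; exact hmk _ hpm) hdim.le
  obtain ⟨x, hxm, M, hM⟩ := ch_params hdimB
  choose v hv using fun i => Ideal.Quotient.mk_surjective (x i)
  choose u hu using fun i => Ideal.Quotient.mk_surjective (v i)
  have hum : ∀ i, u i ∈ maximalIdeal R := by
    intro i
    have h3 := hxm i
    rw [← hv, ← hu, mem_maximalIdeal, mem_nonunits_iff] at h3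
    rw [mem_maximalIdeal, mem_nonunits_iff]
    exact fun h => h3 ((h.map _).map _)
  have hMA := ch_pow_le _ x v hv hM
  obtain ⟨σ, hσ⟩ := exists_witt_hom (S := R) p
  obtain ⟨ι, hιC, hιX⟩ := ch_evalHom (maximalIdeal R) σ u hum
  have hιX' : (fun i => ι (MvPowerSeries.X i)) = u := funext hιX
  have hMR : maximalIdeal R ^ M ≤ Ideal.ofList hs ⊔ (Ideal.span {(p : R)} ⊔
      Ideal.span (Set.range u)) := by
    have h1 : (Ideal.span {(p : R ⧸ Ideal.ofList hs)} ⊔ Ideal.span (Set.range v)) =
        Ideal.span (Set.range (Option.elim · (p : R ⧸ Ideal.ofList hs) v)) := by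
      rw [← Ideal.span_union]
      congr 1
      ext y
      simp only [Set.singleton_union, Set.mem_insert_iff, Set.mem_range, Option.exists,
        Option.elim_none, Option.elim_some]
      tauto
    rw [h1] at hMA
    have h2 := ch_pow_le _ (Option.elim · (p : R ⧸ Ideal.ofList hs) v)
      (Option.elim · (p : R) u) (by
        rintro (_ | i)
        · simp
        · exact hu i) hMA
    refine h2.trans (sup_le_sup_left ?_ _)
    rw [Ideal.span_le]
    rintro _ ⟨(_ | i), rfl⟩
    · exact Ideal.mem_sup_left (Ideal.mem_span_singleton_self _)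
    · exact Ideal.mem_sup_right (Ideal.subset_span ⟨i, rfl⟩)
  refine ⟨ι, fun w => by rw [hιC, hσ], fun i => by rw [hιX]; exact hum i, ?_, ⟨M, ?_⟩, ?_⟩
  · -- finiteness
    refine ch_finite (M := M) (p : WittVector p (ResidueField R)) _ (fun z => ?_) ?_ (fun i => ?_) ?_
    · obtain ⟨z, rfl⟩ := Ideal.Quotient.mk_surjective z
      refine ⟨WittVector.teichmuller p (residue R z), ?_⟩
      rw [RingHom.comp_apply, ← map_sub]
      refine hmk _ ?_
      rw [← residue_eq_zero_iff, map_sub, hιC, hσ, WittVector.teichmuller_coeff_zero, sub_self]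
    · rw [RingHom.comp_apply, hιC, map_natCast]
      exact hmk _ hpm
    · rw [RingHom.comp_apply, hιX]
      exact hmk _ (hum i)
    · have h1 : (Set.range fun i => (Ideal.Quotient.mk (Ideal.ofList hs)).comp ι
          (MvPowerSeries.X i)) = Set.range v := by
        congr 1
        funext i
        rw [RingHom.comp_apply, hιX, hu]
      rw [h1, Ideal.span_union, RingHom.comp_apply, hιC, map_natCast, map_natCast]
      exact hMA
  · rw [hιX']
    exact hMR
  · rw [hιX']
    refine isWeaklyRegular_of_sop hd _ ?_ ?_ ?_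
    · rw [List.length_append, List.length_cons, List.length_ofFn, ← hlen]
    · intro z hz
      rw [List.mem_append, List.mem_cons, List.mem_ofFn] at hz
      rcases hz with hz | rfl | ⟨i, rfl⟩
      · exact hm z hz
      · exact hpm
      · exact hum i
    · have h1 : Ideal.ofList hs ⊔ (Ideal.span {(p : R)} ⊔ Ideal.span (Set.range u)) =
          Ideal.ofList (hs ++ ((p : R) :: List.ofFn u)) := by
        rw [Ideal.ofList_append, Ideal.ofList_cons]
        congr 2
        rw [Ideal.ofList]
        congr 1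
        ext y
        simp [List.mem_ofFn]
      rw [← h1]
      intro z hz
      exact ⟨M, hMR (Ideal.pow_mem_pow hz M)⟩

/-- **CHOICE**, with the dimension `b`. -/
theorem exists_choice (p : ℕ) [Fact p.Prime] {R : Type u} [CommRing R] [IsRegularLocalRing R]
    [IsAdicComplete (maximalIdeal R) R] [CharP (ResidueField R) p]
    [PerfectRing (ResidueField R) p] {d b : ℕ} (hd : ringKrullDim R = d) (hs : List R)
    (hm : ∀ h ∈ hs, h ∈ maximalIdeal R) (hreg : IsWeaklyRegular R (hs ++ [(p : R)]))
    (hlen : hs.length + b = d) (hb : 1 ≤ b) (hdim : ringKrullDim (R ⧸ Ideal.ofList hs) = b) :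
    ∃ ι : MvPowerSeries (Fin (b - 1)) (WittVector p (ResidueField R)) →+* R,
      (∀ w, residue R (ι (MvPowerSeries.C w)) = w.coeff 0) ∧
      (∀ i, ι (MvPowerSeries.X i) ∈ maximalIdeal R) ∧
      ((Ideal.Quotient.mk (Ideal.ofList hs)).comp ι).Finite ∧
      (∃ M : ℕ, maximalIdeal R ^ M ≤ Ideal.ofList hs ⊔ (Ideal.span {(p : R)} ⊔
        Ideal.span (Set.range fun i => ι (MvPowerSeries.X i)))) ∧
      IsWeaklyRegular R (hs ++ ((p : R) :: List.ofFn fun i => ι (MvPowerSeries.X i))) := by
  obtain ⟨r, rfl⟩ : ∃ r, b = r + 1 := ⟨b - 1, by omega⟩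
  exact exists_choice_succ p hd hs hm hreg hlen hdim

/-- **CHOICE**, packaged for the flag formula: the algebra `Λ = W(k)[[u_1, ..., u_{b-1}]] → R`, a
regular local ring of dimension `b`, over which `R ⧸ (hs)` is finite and free, and an
algebraically closed field `Ω` containing it. -/
theorem exists_choice_flag (p : ℕ) [Fact p.Prime] {R : Type u} [CommRing R]
    [IsRegularLocalRing R] [IsAdicComplete (maximalIdeal R) R] [CharP (ResidueField R) p]
    [PerfectRing (ResidueField R) p] {d b : ℕ} (hd : ringKrullDim R = d) (hs : List R)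
    (hm : ∀ h ∈ hs, h ∈ maximalIdeal R) (hreg : IsWeaklyRegular R (hs ++ [(p : R)]))
    (hlen : hs.length + b = d) (hb : 1 ≤ b) (hdim : ringKrullDim (R ⧸ Ideal.ofList hs) = b) :
    ∃ (_ : IsRegularLocalRing (MvPowerSeries (Fin (b - 1)) (WittVector p (ResidueField R))))
      (_ : Algebra (MvPowerSeries (Fin (b - 1)) (WittVector p (ResidueField R))) R),
      (∀ w, residue R (algebraMap (MvPowerSeries (Fin (b - 1)) (WittVector p (ResidueField R))) R
        (MvPowerSeries.C w)) = w.coeff 0) ∧
      (∀ i, algebraMap (MvPowerSeries (Fin (b - 1)) (WittVector p (ResidueField R))) R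
        (MvPowerSeries.X i) ∈ maximalIdeal R) ∧
      ringKrullDim (MvPowerSeries (Fin (b - 1)) (WittVector p (ResidueField R))) =
        ringKrullDim (R ⧸ Ideal.ofList hs) ∧
      maximalIdeal (MvPowerSeries (Fin (b - 1)) (WittVector p (ResidueField R))) =
        Ideal.span ({(p : MvPowerSeries (Fin (b - 1)) (WittVector p (ResidueField R)))} ∪
          Set.range MvPowerSeries.X) ∧
      Module.Finite (MvPowerSeries (Fin (b - 1)) (WittVector p (ResidueField R)))
        (R ⧸ Ideal.ofList hs) ∧
      Module.Free (MvPowerSeries (Fin (b - 1)) (WittVector p (ResidueField R)))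
        (R ⧸ Ideal.ofList hs) ∧
      (∃ M : ℕ, maximalIdeal R ^ M ≤ Ideal.ofList hs ⊔
        (maximalIdeal (MvPowerSeries (Fin (b - 1)) (WittVector p (ResidueField R)))).map
          (algebraMap (MvPowerSeries (Fin (b - 1)) (WittVector p (ResidueField R))) R)) ∧
      IsWeaklyRegular R (hs ++ ((p : R) :: List.ofFn fun i =>
        algebraMap (MvPowerSeries (Fin (b - 1)) (WittVector p (ResidueField R))) R
          (MvPowerSeries.X i))) := by
  obtain ⟨ι, h1, h2, h3, ⟨M, hM⟩, h5⟩ := exists_choice p hd hs hm hreg hlen hb hdim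
  obtain ⟨hΛ, hΛd, hΛm⟩ := ch_regular (ResidueField R) p (b - 1)
  have hb1 : b - 1 + 1 = b := by omega
  rw [hb1] at hΛd
  let _ : Algebra (MvPowerSeries (Fin (b - 1)) (WittVector p (ResidueField R))) R := ι.toAlgebra
  have hfin : Module.Finite (MvPowerSeries (Fin (b - 1)) (WittVector p (ResidueField R)))
      (R ⧸ Ideal.ofList hs) := h3
  refine ⟨hΛ, ι.toAlgebra, h1, h2, hΛd.trans hdim.symm, hΛm, hfin,
    free_quotient_ofList hd hs hm hlen _ hΛd, ⟨M, ?_⟩, h5⟩
  refine hM.trans (sup_le_sup_left ?_ _)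
  rw [hΛm, Ideal.map_span, Set.image_union, Set.image_singleton, Ideal.span_union,
    ← Set.range_comp]
  refine sup_le_sup ?_ le_rfl
  rw [Ideal.span_singleton_le_iff_mem]
  refine Ideal.subset_span ?_
  rw [Set.mem_singleton_iff]
  exact (map_natCast ι p).symm

theorem ch_charZero_witt (k : Type u) [Field k] (p : ℕ) [Fact p.Prime] [CharP k p] :
    CharZero (WittVector p k) := by
  obtain ⟨q, hq⟩ := CharP.exists (WittVector p k)
  rcases CharP.char_is_prime_or_zero (WittVector p k) q with hqp | rfl
  · exfalso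
    have h1 : (q : WittVector p k) = 0 := CharP.cast_eq_zero _ _
    have h2 : (q : k) = 0 := by
      have := congrArg (WittVector.constantCoeff (p := p) (R := k)) h1
      rwa [map_natCast, map_zero] at this
    have h3 : p ∣ q := (CharP.cast_eq_zero_iff k p q).1 h2
    have h4 : p = q := (Nat.prime_dvd_prime_iff_eq Fact.out hqp).1 h3
    exact WittVector.p_nonzero p k (by rw [← h4] at h1; exact h1)
  · exact CharP.charP_to_charZero _

theorem ch_charZero (k : Type u) [Field k] (p : ℕ) [Fact p.Prime] [CharP k p] (n : ℕ) :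
    CharZero (MvPowerSeries (Fin n) (WittVector p k)) := by
  have := ch_charZero_witt k p
  exact charZero_of_injective_ringHom (f := MvPowerSeries.C) MvPowerSeries.C_injective

/-- An algebraically closed field of characteristic zero containing a domain. -/
theorem ch_omega (Λ : Type u) [CommRing Λ] [IsDomain Λ] [CharZero Λ] :
    ∃ (Ω : Type u) (_ : Field Ω) (_ : IsAlgClosed Ω) (_ : CharZero Ω) (_ : Algebra Λ Ω),
      FaithfulSMul Λ Ω := by
  have h1 : Function.Injective (algebraMap Λ (AlgebraicClosure (FractionRing Λ))) := by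
    rw [IsScalarTower.algebraMap_eq Λ (FractionRing Λ) (AlgebraicClosure (FractionRing Λ))]
    exact (algebraMap (FractionRing Λ) _).injective.comp (IsFractionRing.injective Λ _)
  exact ⟨AlgebraicClosure (FractionRing Λ), inferInstance, inferInstance,
    charZero_of_injective_ringHom h1, inferInstance, (faithfulSMul_iff_algebraMap_injective _ _).2 h1⟩

end Vale.Agent.P177
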