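import Mathlib

/-!
P177, (FE) part A: the Rees ring of a graded family of ideals `M s` of a commutative ring `W`
modulo the graded family `N s`; everything in degree `s` is `M s / N s`.
-/

namespace Vale.Agent.P177.PI

universe u v

/-- A graded family of pairs of ideals `N s ≤ M s`. -/
structure RFam (W : Type u) [CommRing W] (G : Type v) [AddCommGroup G] where
  /-- the ideals -/
  M : G → Ideal W
  /-- the denominators -/
  N : G → Ideal W
  le : ∀ s, N s ≤ M s
  one : (1 : W) ∈ M 0
  mul : ∀ {s s' : G} {x y : W}, x ∈ M s → y ∈ M s' → x * y ∈ M (s + s')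
  mulN : ∀ {s s' : G} {x y : W}, x ∈ M s → y ∈ N s' → x * y ∈ N (s + s')

namespace RFam

variable {W : Type u} [CommRing W] {G : Type v} [AddCommGroup G] (F : RFam W G)

/-- the Rees ring. -/
def MM : Subring (AddMonoidAlgebra W G) where
  carrier := {f | ∀ s, f.coeff s ∈ F.M s}
  mul_mem' := by
    classical
    intro f g hf hg s
    rw [AddMonoidAlgebra.coeff_mul]
    refine Ideal.sum_mem _ fun a _ => Ideal.sum_mem _ fun b _ => ?_
    dsimp only
    split_ifs with h
    · rw [← h]; exact F.mul (hf a) (hg b)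
    · exact zero_mem _
  one_mem' := by
    classical
    intro s
    rw [AddMonoidAlgebra.one_def, AddMonoidAlgebra.coeff_single]
    by_cases h : s = 0
    · subst h
      rw [Finsupp.single_eq_same]
      exact F.one
    · rw [Finsupp.single_eq_of_ne h]
      exact zero_mem _
  add_mem' := by
    intro f g hf hg s
    exact add_mem (hf s) (hg s)
  zero_mem' := fun s => zero_mem _
  neg_mem' := by
    intro f hf s
    exact neg_mem (hf s)

/-- the ideal of denominators. -/
def NN : Ideal F.MM where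
  carrier := {f | ∀ s, (f : AddMonoidAlgebra W G).coeff s ∈ F.N s}
  add_mem' := by
    intro f g hf hg s
    exact add_mem (hf s) (hg s)
  zero_mem' := fun s => zero_mem _
  smul_mem' := by
    classical
    intro f g hg s
    change ((f : AddMonoidAlgebra W G) * (g : AddMonoidAlgebra W G)).coeff s ∈ F.N s
    rw [AddMonoidAlgebra.coeff_mul]
    refine Ideal.sum_mem _ fun a _ => Ideal.sum_mem _ fun b _ => ?_
    dsimp only
    split_ifs with h
    · rw [← h]; exact F.mulN (f.2 a) (hg b)
    · exact zero_mem _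

/-- the graded ring. -/
abbrev E : Type _ := F.MM ⧸ F.NN

theorem single_mem {s : G} {x : W} (hx : x ∈ F.M s) :
    (AddMonoidAlgebra.single s x : AddMonoidAlgebra W G) ∈ F.MM := by
  classical
  intro s'
  rw [AddMonoidAlgebra.coeff_single]
  by_cases h : s' = s
  · subst h
    rw [Finsupp.single_eq_same]
    exact hx
  · rw [Finsupp.single_eq_of_ne h]
    exact zero_mem _

open Classical in
/-- the class of an element of degree `s`. -/
noncomputable def cls (s : G) (x : W) : F.E :=
  if h : x ∈ F.M s then Ideal.Quotient.mk F.NN ⟨AddMonoidAlgebra.single s x, F.single_mem h⟩ else 0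

theorem cls_of_mem {s : G} {x : W} (h : x ∈ F.M s) :
    F.cls s x = Ideal.Quotient.mk F.NN ⟨AddMonoidAlgebra.single s x, F.single_mem h⟩ :=
  dif_pos h

theorem cls_eq_zero_iff {s : G} {x : W} (h : x ∈ F.M s) : F.cls s x = 0 ↔ x ∈ F.N s := by
  classical
  rw [F.cls_of_mem h, Ideal.Quotient.eq_zero_iff_mem]
  constructor
  · intro h1
    have h2 := h1 s
    change (AddMonoidAlgebra.single s x : AddMonoidAlgebra W G).coeff s ∈ F.N s at h2
    rw [AddMonoidAlgebra.coeff_single, Finsupp.single_eq_same] at h2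
    exact h2
  · intro h1 s'
    change (AddMonoidAlgebra.single s x : AddMonoidAlgebra W G).coeff s' ∈ F.N s'
    rw [AddMonoidAlgebra.coeff_single]
    by_cases h : s' = s
    · subst h
      rw [Finsupp.single_eq_same]
      exact h1
    · rw [Finsupp.single_eq_of_ne h]
      exact zero_mem _

theorem cls_add {s : G} {x y : W} (hx : x ∈ F.M s) (hy : y ∈ F.M s) :
    F.cls s (x + y) = F.cls s x + F.cls s y := by
  rw [F.cls_of_mem hx, F.cls_of_mem hy, F.cls_of_mem (add_mem hx hy), ← map_add]
  congr 1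
  apply Subtype.ext
  exact AddMonoidAlgebra.single_add s x y

theorem cls_zero (s : G) : F.cls s 0 = 0 := (F.cls_eq_zero_iff (zero_mem _)).2 (zero_mem _)

theorem cls_neg {s : G} {x : W} (hx : x ∈ F.M s) : F.cls s (-x) = - F.cls s x := by
  rw [eq_neg_iff_add_eq_zero, ← F.cls_add (neg_mem hx) hx, neg_add_cancel, cls_zero]

theorem cls_sub {s : G} {x y : W} (hx : x ∈ F.M s) (hy : y ∈ F.M s) :
    F.cls s (x - y) = F.cls s x - F.cls s y := by
  rw [sub_eq_add_neg, F.cls_add hx (neg_mem hy), F.cls_neg hy, sub_eq_add_neg]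

theorem cls_mul {s s' : G} {x y : W} (hx : x ∈ F.M s) (hy : y ∈ F.M s') :
    F.cls s x * F.cls s' y = F.cls (s + s') (x * y) := by
  rw [F.cls_of_mem hx, F.cls_of_mem hy, F.cls_of_mem (F.mul hx hy), ← map_mul]
  congr 1
  apply Subtype.ext
  exact (AddMonoidAlgebra.single_mul_single s s' x y)

theorem cls_one : F.cls 0 1 = 1 := by
  rw [F.cls_of_mem F.one]
  rfl

theorem cls_eq_iff {s : G} {x y : W} (hx : x ∈ F.M s) (hy : y ∈ F.M s) :
    F.cls s x = F.cls s y ↔ x - y ∈ F.N s := by
  rw [← sub_eq_zero, ← F.cls_sub hx hy, F.cls_eq_zero_iff (sub_mem hx hy)]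

theorem cls_sum {ι : Type*} (S : Finset ι) {s : G} (x : ι → W) (hx : ∀ i ∈ S, x i ∈ F.M s) :
    F.cls s (∑ i ∈ S, x i) = ∑ i ∈ S, F.cls s (x i) := by
  classical
  induction S using Finset.induction_on with
  | empty => simp [F.cls_zero]
  | insert a S ha ih =>
    rw [Finset.sum_insert ha, Finset.sum_insert ha,
      F.cls_add (hx a (Finset.mem_insert_self _ _))
        (Ideal.sum_mem _ fun i hi => hx i (Finset.mem_insert_of_mem hi)),
      ih fun i hi => hx i (Finset.mem_insert_of_mem hi)]

theorem cls_pow_neg_one_mul {s : G} (k : ℕ) {x : W} (hx : x ∈ F.M s) :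
    F.cls s ((-1) ^ k * x) = (-1) ^ k * F.cls s x := by
  rcases Nat.even_or_odd k with h | h
  · rw [h.neg_one_pow, h.neg_one_pow, one_mul, one_mul]
  · rw [h.neg_one_pow, h.neg_one_pow, neg_one_mul, neg_one_mul, F.cls_neg hx]

theorem mem_N_congr {s s' : G} (h : s = s') {x : W} (hx : x ∈ F.N s) : x ∈ F.N s' := h ▸ hx

theorem mem_M_congr {s s' : G} (h : s = s') {x : W} (hx : x ∈ F.M s) : x ∈ F.M s' := h ▸ hx

/-- scalars of degree zero: every element of `W`. -/
theorem mem_zero (x : W) : x ∈ F.M 0 := by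
  have := Ideal.mul_mem_left _ x F.one
  rwa [mul_one] at this

/-- the degree `s` part. -/
def part (s : G) : AddSubgroup F.E where
  carrier := {e | ∃ x ∈ F.M s, e = F.cls s x}
  add_mem' := by
    rintro _ _ ⟨x, hx, rfl⟩ ⟨y, hy, rfl⟩
    exact ⟨x + y, add_mem hx hy, (F.cls_add hx hy).symm⟩
  zero_mem' := ⟨0, zero_mem _, (F.cls_zero s).symm⟩
  neg_mem' := by
    rintro _ ⟨x, hx, rfl⟩
    exact ⟨-x, neg_mem hx, (F.cls_neg hx).symm⟩

theorem cls_mem_part {s : G} {x : W} (hx : x ∈ F.M s) : F.cls s x ∈ F.part s := ⟨x, hx, rfl⟩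

end RFam

end Vale.Agent.P177.PI
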