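import Vale.Agent.P177.PI.KosB
import Vale.Agent.P177.Perf.PerfHull

/-!
P177, (KOS): in a perfect ring of characteristic `p` the Koszul complex of `a_1, .., a_m` on the
perfect hulls `perfHull (P * I ^ (s - |S|))`, `I = (a_1, .., a_m)`, is exact for `m < s`.
-/

namespace Vale.Agent.P177.PI

open Vale.Agent.P202.Mix Vale.Agent.P177.Perf
open scoped Pointwise

universe u

theorem exists_finset_of_mem_span {C : Type*} [CommRing C] (T : Set C) {x : C}
    (hx : x ∈ Submodule.span C T) :
    ∃ s : Finset C, ∀ D : Subring C, (s : Set C) ⊆ D → x ∈ Submodule.span D T := by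
  classical
  refine Submodule.span_induction (p := fun x _ => ∃ s : Finset C, ∀ D : Subring C,
    (s : Set C) ⊆ D → x ∈ Submodule.span D T) ?_ ?_ ?_ ?_ hx
  · intro x hx
    exact ⟨∅, fun D _ => Submodule.subset_span hx⟩
  · exact ⟨∅, fun D _ => zero_mem _⟩
  · rintro x y _ _ ⟨s, hs⟩ ⟨t, ht⟩
    refine ⟨s ∪ t, fun D hD => add_mem (hs D ?_) (ht D ?_)⟩
    · exact (Finset.coe_subset.2 Finset.subset_union_left).trans hD
    · exact (Finset.coe_subset.2 Finset.subset_union_right).trans hD
  · rintro c x _ ⟨s, hs⟩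
    refine ⟨insert c s, fun D hD => ?_⟩
    have hc : c ∈ D := hD (by simp)
    have h1 := hs D ((Finset.coe_subset.2 (Finset.subset_insert c s)).trans hD)
    have h2 := Submodule.smul_mem _ (⟨c, hc⟩ : D) h1
    exact h2

theorem exists_ideal_of_mem_span {C : Type*} [CommRing C] (D : Subring C) {t m : ℕ}
    (g : Fin t → D) (a : Fin m → D) (n1 n2 : ℕ) {x : C}
    (hx : x ∈ Submodule.span D ((Set.range fun k => (g k : C)) ^ n1 *
      (Set.range fun k => (a k : C)) ^ n2)) :
    ∃ y ∈ Ideal.span (Set.range g) ^ n1 * Ideal.span (Set.range a) ^ n2, (y : C) = x := by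
  have h1 : (Ideal.span (Set.range g) ^ n1 * Ideal.span (Set.range a) ^ n2 : Ideal D) =
      Submodule.span D (Set.range g ^ n1 * Set.range a ^ n2) := by
    rw [Ideal.span, Ideal.span, Submodule.span_pow, Submodule.span_pow, Submodule.span_mul_span]
  rw [h1]
  have h2 : (Set.range fun k => (g k : C)) ^ n1 * (Set.range fun k => (a k : C)) ^ n2 =
      (Algebra.linearMap D C) '' (Set.range g ^ n1 * Set.range a ^ n2) := by
    have h3 : ⇑(Algebra.linearMap D C) = ⇑(D.subtype) := rfl
    rw [h3, Set.image_mul, Set.image_pow, Set.image_pow, ← Set.range_comp, ← Set.range_comp]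
    rfl
  rw [h2, ← Submodule.map_span] at hx
  exact hx

section

variable (p : ℕ) [hp : Fact p.Prime] {C : Type u} [CommRing C] [CharP C p] [PerfectRing C p]

/-- (KOS): Koszul exactness of perfect Rees modules in degrees `> m`. -/
theorem kos_exact (P : Ideal C) (hP : P.FG) {m : ℕ} (a : Fin m → C) (s : ℕ) (hs : m < s)
    (v : Finset (Fin m) → C)
    (hv : ∀ S, v S ∈ perfHull p (P * Ideal.span (Set.range a) ^ (s - S.card)))
    (hz : kd a v = 0) :
    ∃ w : Finset (Fin m) → C,
      (∀ S, w S ∈ perfHull p (P * Ideal.span (Set.range a) ^ (s - S.card))) ∧ kd a w = v := by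
  classical
  obtain ⟨t, g, rfl⟩ := Submodule.fg_iff_exists_fin_generating_family.1 hP
  have hpe : ∀ (n1 r : ℕ), (Submodule.span C (Set.range g) * Ideal.span (Set.range a) ^ r) ^ n1 =
      Submodule.span C (Set.range g ^ n1 * Set.range a ^ (r * n1)) := by
    intro n1 r
    rw [mul_pow, ← pow_mul, Ideal.span, Submodule.span_pow, Submodule.span_pow,
      Submodule.span_mul_span]
  choose e he using hv
  set e0 := Finset.univ.sup e with he0
  have hve : ∀ S, v S ^ p ^ e0 ∈ Submodule.span C (Set.range g ^ p ^ e0 *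
      Set.range a ^ ((s - S.card) * p ^ e0)) := by
    intro S
    rw [← hpe]
    exact pow_mem_of_le (Finset.le_sup (Finset.mem_univ S)) (he S)
  choose fs hfs using fun S => exists_finset_of_mem_span _ (hve S)
  -- the noetherian subring
  let s0 : Finset C := (Finset.univ.image g ∪ Finset.univ.image a) ∪ Finset.univ.biUnion fs
  set D : Subring C := Subring.closure (s0 : Set C) with hD
  have hDs : (s0 : Set C) ⊆ D := Subring.subset_closure
  have : IsNoetherianRing D := is_noetherian_subring_closure _ s0.finite_toSet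
  let gD : Fin t → D := fun k => ⟨g k, hDs (by simp [s0])⟩
  let aD : Fin m → D := fun k => ⟨a k, hDs (by simp [s0])⟩
  have hy : ∀ S, ∃ y ∈ Ideal.span (Set.range gD) ^ p ^ e0 *
      Ideal.span (Set.range aD) ^ ((s - S.card) * p ^ e0), (y : C) = v S ^ p ^ e0 := by
    intro S
    refine exists_ideal_of_mem_span D gD aD _ _ (hfs S D ?_)
    refine subset_trans ?_ hDs
    rw [Finset.coe_subset]
    refine subset_trans ?_ Finset.subset_union_right
    exact Finset.subset_biUnion_of_mem fs (Finset.mem_univ S)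
  choose y hy1 hy2 using hy
  obtain ⟨K, hK⟩ := exists_ex_pow (Ideal.span (Set.range gD)) aD
  set E := e0 + K with hE
  set q := p ^ E with hq
  have hqK : K ≤ q := by
    have h1 : K < p ^ K := Nat.lt_pow_self hp.out.one_lt
    have h2 : p ^ K ≤ p ^ E := Nat.pow_le_pow_right hp.out.pos (by omega)
    omega
  have hq1 : 1 ≤ q := Nat.one_le_pow _ _ hp.out.pos
  have hσ : K + m * (q - 1) ≤ s * q := by
    have h1 : (m + 1) * q ≤ s * q := Nat.mul_le_mul_right q hs
    have h2 : m * (q - 1) ≤ m * q := Nat.mul_le_mul_left m (Nat.sub_le q 1)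
    have h3 : (m + 1) * q = m * q + q := by ring
    omega
  have hinj : ∀ x x' : C, x ^ q = x' ^ q → x = x' := by
    intro x x' h
    apply (iterateFrobeniusEquiv C p E).injective
    rw [coe_iterateFrobeniusEquiv, iterateFrobenius_def, iterateFrobenius_def]
    exact h
  have hkdq : ∀ (u : Finset (Fin m) → C) (J : Finset (Fin m)),
      kd a u J ^ q = kd (fun l => a l ^ q) (fun S => u S ^ q) J := by
    intro u J
    have h := kd_map (iterateFrobenius C p E) a u J
    simp only [iterateFrobenius_def] at h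
    exact h
  have hyq : ∀ S, ((y S ^ p ^ K : D) : C) = v S ^ q := by
    intro S
    rw [SubmonoidClass.coe_pow, hy2, ← pow_mul, hq, hE, pow_add]
  obtain ⟨w', hw1, hw2⟩ := hK (p ^ E) q (s * q) hq1 hσ (fun S => y S ^ p ^ K) (by
    intro S
    have h1 := Ideal.pow_mem_pow (hy1 S) (p ^ K)
    rw [mul_pow, ← pow_mul, ← pow_mul, ← pow_add] at h1
    have h2 : (s - S.card) * p ^ e0 * p ^ K = s * q - S.card * q := by
      rw [← Nat.sub_mul, mul_assoc, ← pow_add]
    rw [h2] at h1
    exact h1) (by
    funext J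
    apply Subtype.ext
    have h1 := kd_map D.subtype (fun l => aD l ^ q) (fun S => y S ^ p ^ K) J
    change ((kd (fun l => aD l ^ q) (fun S => y S ^ p ^ K) J : D) : C) = 0
    refine h1.trans ?_
    have h2 : (fun S => D.subtype (y S ^ p ^ K)) = fun S => v S ^ q := funext hyq
    have h3 : (fun l => D.subtype (aD l ^ q)) = fun l => a l ^ q := by
      funext l
      rw [map_pow]
      rfl
    rw [h2, h3, ← hkdq, hz]
    exact zero_pow (by omega))
  refine ⟨fun S => rt p E (w' S : C), fun S => ⟨E, ?_⟩, ?_⟩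
  · have h0 : rt p E (w' S : C) ^ p ^ E = w' S := by
      rw [rt, ← iterateFrobenius_def, ← coe_iterateFrobeniusEquiv]
      exact RingEquiv.apply_symm_apply _ _
    rw [h0, mul_pow, ← pow_mul]
    have h1 := Ideal.mem_map_of_mem D.subtype (hw1 S)
    rw [Ideal.map_mul, Ideal.map_pow, Ideal.map_pow, Ideal.map_span, Ideal.map_span,
      ← Set.range_comp, ← Set.range_comp] at h1
    have h2 : s * q - S.card * q = (s - S.card) * p ^ E := by rw [← Nat.sub_mul]
    rw [h2] at h1
    exact h1
  · funext J
    apply hinj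
    rw [hkdq]
    have h0 : (fun S => rt p E (w' S : C) ^ q) = fun S => (w' S : C) := by
      funext S
      rw [hq, rt, ← iterateFrobenius_def, ← coe_iterateFrobeniusEquiv]
      exact RingEquiv.apply_symm_apply _ _
    rw [h0]
    have h1 := kd_map D.subtype (fun l => aD l ^ q) w' J
    have h3 : (fun l => D.subtype (aD l ^ q)) = fun l => a l ^ q := by
      funext l
      rw [map_pow]
      rfl
    rw [h3] at h1
    refine h1.symm.trans ?_
    rw [hw2]
    exact hyq J

/-- graded version: a cycle concentrated in degree `i` bounds a chain concentrated in degree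
`i + 1`. -/
theorem kos_exact_graded (P : Ideal C) (hP : P.FG) {m : ℕ} (a : Fin m → C) (s : ℕ) (hs : m < s)
    (i : ℕ) (v : Finset (Fin m) → C)
    (hv : ∀ S : Finset (Fin m), S.card = i →
      v S ∈ perfHull p (P * Ideal.span (Set.range a) ^ (s - i)))
    (hv0 : ∀ S : Finset (Fin m), S.card ≠ i → v S = 0)
    (hz : kd a v = 0) :
    ∃ w : Finset (Fin m) → C,
      (∀ S : Finset (Fin m), S.card = i + 1 →
        w S ∈ perfHull p (P * Ideal.span (Set.range a) ^ (s - (i + 1)))) ∧
      (∀ S : Finset (Fin m), S.card ≠ i + 1 → w S = 0) ∧ kd a w = v := by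
  obtain ⟨w, hw, hw'⟩ := kos_exact p P hP a s hs v (by
    intro S
    by_cases h : S.card = i
    · rw [h]
      exact hv S h
    · rw [hv0 S h]
      exact zero_mem _) hz
  refine ⟨dp (i + 1) w, ?_, ?_, ?_⟩
  · intro S h
    rw [dp_eq _ h, ← h]
    exact hw S
  · intro S h
    exact dp_ne _ h
  · rw [kd_dp, hw']
    funext S
    by_cases h : S.card = i
    · rw [dp_eq _ h]
    · rw [dp_ne _ h, hv0 S h]

end

end Vale.Agent.P177.PI
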