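import Vale.Agent.P202.Mix.KzBasic

/-!
P177, (KOS), part A: the Koszul differential `kd b` on functions `Finset (Fin m) → R`, wedge with
a basis vector, and the cone lemma `Ex.cone` (replace one element by a product).
-/

namespace Vale.Agent.P177.PI

open Vale.Agent.P202.Mix

universe u

variable {R : Type u} [CommRing R] {m : ℕ}

/-- Koszul differential of the elements `b l`. -/
def kd (b : Fin m → R) (v : Finset (Fin m) → R) (J : Finset (Fin m)) : R :=
  ∑ l ∈ Jᶜ, ksg l J • (b l * v (insert l J))

theorem kz_eq_kd (b : Fin m → R) (v : Finset (Fin m) → R) :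
    kz (fun l => LinearMap.mulLeft R (b l)) v = kd b v := rfl

theorem kd_add (b : Fin m → R) (v w : Finset (Fin m) → R) : kd b (v + w) = kd b v + kd b w := by
  rw [← kz_eq_kd, ← kz_eq_kd, ← kz_eq_kd, map_add]

theorem kd_zero (b : Fin m → R) : kd b (0 : Finset (Fin m) → R) = 0 := by
  rw [← kz_eq_kd, map_zero]

theorem kd_sum {ι : Type*} (b : Fin m → R) (s : Finset ι) (v : ι → Finset (Fin m) → R) :
    kd b (∑ i ∈ s, v i) = ∑ i ∈ s, kd b (v i) := by
  rw [← kz_eq_kd, map_sum]
  rfl

theorem kd_map {R' : Type*} [CommRing R'] (φ : R →+* R') (b : Fin m → R)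
    (v : Finset (Fin m) → R) (J : Finset (Fin m)) :
    φ (kd b v J) = kd (fun l => φ (b l)) (fun S => φ (v S)) J := by
  unfold kd
  rw [map_sum]
  refine Finset.sum_congr rfl fun l _ => ?_
  rw [map_zsmul, map_mul]

/-- the value at `J ∌ l`. -/
theorem kd_notMem (b : Fin m → R) (v : Finset (Fin m) → R) {J : Finset (Fin m)} {l : Fin m}
    (h : l ∉ J) : kd b v J = ksg l J • (b l * v (insert l J)) +
      ∑ k ∈ (insert l J)ᶜ, ksg k J • (b k * v (insert k J)) := by
  have hc : Jᶜ = insert l (insert l J)ᶜ := by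
    ext k
    simp only [Finset.mem_compl, Finset.mem_insert]
    by_cases hk : k = l
    · subst hk; simp [h]
    · simp [hk]
  unfold kd
  rw [hc, Finset.sum_insert (by simp)]

/-- `e_l ∧ v`. -/
def wg (l : Fin m) (v : Finset (Fin m) → R) (J : Finset (Fin m)) : R :=
  if l ∈ J then ksg l (J.erase l) • v (J.erase l) else 0

theorem kd_wg (b : Fin m → R) (l : Fin m) (v : Finset (Fin m) → R) (hv : kd b v = 0) :
    kd b (wg l v) = fun J => b l * v J := by
  funext J
  have hwin : ∀ J, l ∈ J → wg l v J = ksg l (J.erase l) • v (J.erase l) := fun J h => if_pos h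
  have hwout : ∀ J, l ∉ J → wg l v J = 0 := fun J h => if_neg h
  unfold kd
  by_cases h : l ∈ J
  · set J' := J.erase l with hJ'
    have hJ'l : l ∉ J' := Finset.notMem_erase l J
    have hJ : insert l J' = J := Finset.insert_erase h
    have hcyc : kd b v J' = 0 := by rw [hv]; rfl
    unfold kd at hcyc
    have hc : J'ᶜ = insert l Jᶜ := by
      ext k
      simp only [Finset.mem_compl, Finset.mem_insert, hJ', Finset.mem_erase]
      tauto
    have hlc : l ∉ Jᶜ := by simpa using h
    rw [hc, Finset.sum_insert hlc, hJ] at hcyc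
    have h1 : ∀ k ∈ Jᶜ, ksg k J • (b k * wg l v (insert k J)) =
        -(ksg l J' • (ksg k J' • (b k * v (insert k J')))) := by
      intro k hk
      have hk' : k ∉ J := by simpa using hk
      have hkl : l ≠ k := fun h0 => hk' (h0 ▸ h)
      have hkJ' : k ∉ J' := fun h0 => hk' (Finset.mem_of_mem_erase h0)
      have e2 : (insert k J).erase l = insert k J' := by
        rw [hJ', Finset.erase_insert_of_ne (Ne.symm hkl)]
      rw [hwin _ (Finset.mem_insert_of_mem h), e2, mul_smul_comm, smul_smul,
        smul_smul, ← neg_smul]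
      congr 1
      rw [← hJ]
      exact kzb_ksg_anti' hJ'l hkJ' hkl
    rw [Finset.sum_congr rfl h1, Finset.sum_neg_distrib, ← Finset.smul_sum,
      eq_neg_of_add_eq_zero_right hcyc, smul_neg, neg_neg, smul_smul,
      kzb_ksg_mul_self, one_smul]
  · rw [Finset.sum_eq_single l]
    · rw [hwin _ (Finset.mem_insert_self l J), Finset.erase_insert h, mul_smul_comm, smul_smul,
        kzb_ksg_mul_self, one_smul]
    · intro k hk hkl
      have : l ∉ insert k J := by
        simp only [Finset.mem_insert, not_or]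
        exact ⟨Ne.symm hkl, h⟩
      rw [hwout _ this, mul_zero, smul_zero]
    · intro h0
      exact absurd (by simpa using h) h0

/-- the part of degree `i`. -/
def dp (i : ℕ) (v : Finset (Fin m) → R) (J : Finset (Fin m)) : R := if J.card = i then v J else 0

theorem dp_eq {i : ℕ} (v : Finset (Fin m) → R) {J : Finset (Fin m)} (h : J.card = i) :
    dp i v J = v J := if_pos h

theorem dp_ne {i : ℕ} (v : Finset (Fin m) → R) {J : Finset (Fin m)} (h : J.card ≠ i) :
    dp i v J = 0 := if_neg h

theorem kd_dp (b : Fin m → R) (i : ℕ) (v : Finset (Fin m) → R) :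
    kd b (dp (i + 1) v) = dp i (kd b v) := by
  funext J
  by_cases h : J.card = i
  · rw [dp_eq _ h]
    unfold kd
    refine Finset.sum_congr rfl fun l hl => ?_
    have hl' : l ∉ J := by simpa using hl
    rw [dp_eq _ (by rw [Finset.card_insert_of_notMem hl', h])]
  · rw [dp_ne _ h]
    unfold kd
    refine Finset.sum_eq_zero fun l hl => ?_
    have hl' : l ∉ J := by simpa using hl
    rw [dp_ne _ (by rw [Finset.card_insert_of_notMem hl']; omega), mul_zero, smul_zero]

theorem kd_dp_zero (b : Fin m → R) (v : Finset (Fin m) → R) :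
    kd b (dp 0 v) = 0 := by
  funext J
  unfold kd
  refine Finset.sum_eq_zero fun l hl => ?_
  have hl' : l ∉ J := by simpa using hl
  rw [dp_ne _ (by rw [Finset.card_insert_of_notMem hl']; omega), mul_zero, smul_zero]

theorem kd_dp_of_cycle (b : Fin m → R) (i : ℕ) (v : Finset (Fin m) → R) (hv : kd b v = 0) :
    kd b (dp i v) = 0 := by
  cases i with
  | zero => exact kd_dp_zero b v
  | succ i =>
    rw [kd_dp, hv]
    funext J
    unfold dp
    split_ifs <;> rfl

theorem sum_dp (v : Finset (Fin m) → R) : ∑ i ∈ Finset.range (m + 1), dp i v = v := by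
  funext J
  rw [Finset.sum_apply]
  unfold dp
  rw [Finset.sum_ite_eq, if_pos]
  rw [Finset.mem_range]
  have := Finset.card_le_univ J
  simp at this
  omega

/-- exactness of the Koszul complex of `b` on the family of ideals `G`. -/
def Ex (b : Fin m → R) (G : Finset (Fin m) → Ideal R) : Prop :=
  ∀ v : Finset (Fin m) → R, (∀ S, v S ∈ G S) → kd b v = 0 →
    ∃ w : Finset (Fin m) → R, (∀ S, w S ∈ G S) ∧ kd b w = v

/-- the cone lemma. -/
theorem Ex.cone {b b' b'' : Fin m → R} {G H K : Finset (Fin m) → Ideal R} (l : Fin m)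
    (hb' : ∀ k, k ≠ l → b' k = b k) (hb'' : ∀ k, k ≠ l → b'' k = b k)
    (hl : b' l = b l * b'' l)
    (hG : ∀ S, l ∉ S → ∀ x ∈ G (insert l S), b l * x ∈ G S)
    (hH : ∀ S, l ∉ S → ∀ x ∈ H (insert l S), b'' l * x ∈ H S)
    (hKG : ∀ S, l ∉ S → K S = G S) (hKH : ∀ S, l ∉ S → K (insert l S) = H (insert l S))
    (hGH : ∀ S, l ∉ S → G (insert l S) = H S)
    (h1 : Ex b G) (h2 : Ex b'' H) : Ex b' K := by
  intro v hv hz
  -- the values of `kd b' v`
  have hz1 : ∀ S, l ∉ S → ksg l S • (b l * b'' l * v (insert l S)) +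
      ∑ k ∈ (insert l S)ᶜ, ksg k S • (b k * v (insert k S)) = 0 := by
    intro S hS
    have := congrFun hz S
    rw [kd_notMem b' v hS, hl] at this
    refine Eq.trans ?_ this
    congr 1
    refine Finset.sum_congr rfl fun k hk => ?_
    rw [hb' k (by intro h; subst h; simp at hk)]
  have hz2 : ∀ S, l ∉ S → ∑ k ∈ (insert l S)ᶜ,
      ksg k (insert l S) • (b k * v (insert k (insert l S))) = 0 := by
    intro S hS
    have h := congrFun hz (insert l S)
    unfold kd at h
    refine Eq.trans ?_ h
    refine Finset.sum_congr rfl fun k hk => ?_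
    rw [hb' k (by intro h; subst h; simp at hk)]
  have hcase : ∀ J : Finset (Fin m), l ∉ J ∨ ∃ S, l ∉ S ∧ J = insert l S := by
    intro J
    by_cases h : l ∈ J
    · exact Or.inr ⟨J.erase l, Finset.notMem_erase l J, (Finset.insert_erase h).symm⟩
    · exact Or.inl h
  have hkc : ∀ (S : Finset (Fin m)) (k : Fin m), k ∈ (insert l S)ᶜ → k ≠ l ∧ k ∉ S := by
    intro S k hk
    simp only [Finset.mem_compl, Finset.mem_insert, not_or] at hk
    exact hk
  -- first step
  let v1 : Finset (Fin m) → R := fun S => if l ∈ S then b'' l * v S else v S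
  have v1in : ∀ S, v1 (insert l S) = b'' l * v (insert l S) := fun S =>
    if_pos (Finset.mem_insert_self l S)
  have v1out : ∀ S, l ∉ S → v1 S = v S := fun S hS => if_neg hS
  obtain ⟨w1, hw1, hw1'⟩ := h1 v1 (by
    intro J
    rcases hcase J with h | ⟨S, hS, rfl⟩
    · rw [v1out J h, ← hKG J h]
      exact hv J
    · rw [v1in, hGH S hS]
      refine hH S hS _ ?_
      rw [← hKH S hS]
      exact hv _) (by
    funext J
    rcases hcase J with h | ⟨S, hS, rfl⟩
    · rw [kd_notMem b v1 h, v1in]
      rw [← mul_assoc]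
      refine Eq.trans ?_ (hz1 J h)
      congr 1
      refine Finset.sum_congr rfl fun k hk => ?_
      obtain ⟨hk1, hk2⟩ := hkc J k hk
      rw [v1out (insert k J) (by simp [h, hk1.symm])]
    · unfold kd
      have : ∀ k ∈ (insert l S)ᶜ, ksg k (insert l S) • (b k * v1 (insert k (insert l S))) =
          b'' l * (ksg k (insert l S) • (b k * v (insert k (insert l S)))) := by
        intro k hk
        rw [Finset.insert_comm k l S, v1in, mul_smul_comm]
        congr 1
        ring
      rw [Finset.sum_congr rfl this, ← Finset.mul_sum, hz2 S hS, mul_zero]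
      rfl)
  -- second step
  let v2 : Finset (Fin m) → R := fun S => if l ∈ S then v S else ksg l S • w1 (insert l S)
  have v2in : ∀ S, v2 (insert l S) = v (insert l S) := fun S =>
    if_pos (Finset.mem_insert_self l S)
  have v2out : ∀ S, l ∉ S → v2 S = ksg l S • w1 (insert l S) := fun S hS => if_neg hS
  have hy : ∀ S, l ∉ S → ∑ k ∈ (insert l S)ᶜ,
      ksg k (insert l S) • (b k * w1 (insert k (insert l S))) = b'' l * v (insert l S) := by
    intro S hS
    have h := congrFun hw1' (insert l S)
    rw [v1in] at h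
    exact h
  obtain ⟨w2, hw2, hw2'⟩ := h2 v2 (by
    intro J
    rcases hcase J with h | ⟨S, hS, rfl⟩
    · rw [v2out J h, ← hGH J h]
      exact zsmul_mem (hw1 _) _
    · rw [v2in, ← hKH S hS]
      exact hv _) (by
    funext J
    rcases hcase J with h | ⟨S, hS, rfl⟩
    · rw [kd_notMem b'' v2 h, v2in]
      have : ∀ k ∈ (insert l J)ᶜ, ksg k J • (b'' k * v2 (insert k J)) =
          -(ksg l J • (ksg k (insert l J) • (b k * w1 (insert k (insert l J))))) := by
        intro k hk
        obtain ⟨hk1, hk2⟩ := hkc J k hk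
        rw [hb'' k hk1, v2out (insert k J) (by simp [h, hk1.symm]), mul_smul_comm, smul_smul,
          smul_smul, Finset.insert_comm l k J, ← neg_smul]
        congr 1
        have h3 := kzb_ksg_anti h hk2 hk1.symm
        linear_combination h3
      rw [Finset.sum_congr rfl this, Finset.sum_neg_distrib, ← Finset.smul_sum, hy J h]
      exact add_neg_cancel _
    · unfold kd
      refine Eq.trans ?_ (hz2 S hS)
      refine Finset.sum_congr rfl fun k hk => ?_
      obtain ⟨hk1, hk2⟩ := hkc S k hk
      rw [hb'' k hk1, Finset.insert_comm k l S, v2in])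
  -- the final chain
  let w : Finset (Fin m) → R := fun S => if l ∈ S then w2 S else w1 S + b l * w2 S
  have win : ∀ S, w (insert l S) = w2 (insert l S) := fun S =>
    if_pos (Finset.mem_insert_self l S)
  have wout : ∀ S, l ∉ S → w S = w1 S + b l * w2 S := fun S hS => if_neg hS
  refine ⟨w, ?_, ?_⟩
  · intro J
    rcases hcase J with h | ⟨S, hS, rfl⟩
    · rw [wout J h, hKG J h]
      refine add_mem (hw1 J) (hG J h _ ?_)
      rw [hGH J h]
      exact hw2 J
    · rw [win, hKH S hS]
      exact hw2 _
  · funext J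
    rcases hcase J with h | ⟨S, hS, rfl⟩
    · have e1 := congrFun hw1' J
      rw [kd_notMem b w1 h, v1out J h] at e1
      have e2 := congrFun hw2' J
      rw [kd_notMem b'' w2 h, v2out J h] at e2
      rw [kd_notMem b' w h, win, hl]
      have e3 : ∑ k ∈ (insert l J)ᶜ, ksg k J • (b' k * w (insert k J)) =
          ∑ k ∈ (insert l J)ᶜ, ksg k J • (b k * w1 (insert k J)) +
          b l * ∑ k ∈ (insert l J)ᶜ, ksg k J • (b'' k * w2 (insert k J)) := by
        rw [Finset.mul_sum, ← Finset.sum_add_distrib]
        refine Finset.sum_congr rfl fun k hk => ?_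
        obtain ⟨hk1, hk2⟩ := hkc J k hk
        rw [hb' k hk1, hb'' k hk1, wout (insert k J) (by simp [h, hk1.symm])]
        rw [mul_smul_comm, ← smul_add]
        congr 1
        ring
      rw [e3]
      rw [← e1]
      have e4 : ksg l J • (b l * w1 (insert l J)) = b l * (ksg l J • w1 (insert l J)) := by
        rw [mul_smul_comm]
      rw [e4, ← e2]
      have e5 : ksg l J • (b l * b'' l * w2 (insert l J)) =
          b l * (ksg l J • (b'' l * w2 (insert l J))) := by
        rw [mul_smul_comm, mul_assoc]
      rw [e5]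
      ring
    · have e2 := congrFun hw2' (insert l S)
      rw [v2in] at e2
      rw [← e2]
      unfold kd
      refine Finset.sum_congr rfl fun k hk => ?_
      obtain ⟨hk1, hk2⟩ := hkc S k hk
      rw [hb' k hk1, hb'' k hk1, Finset.insert_comm k l S, win]

end Vale.Agent.P177.PI
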