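import Vale.Agent.P177.PI.KosA

/-!
P177, (KOS), part B: uniform exactness of the Koszul complexes of `(a_l ^ n_l)` on
`𝔧 ^ N * I ^ (σ - ∑_{j ∈ S} n_j)` over a noetherian ring (Artin-Rees over the Rees algebra of `𝔧`,
then the cone lemma).
-/

namespace Vale.Agent.P177.PI

open Vale.Agent.P202.Mix Polynomial

universe u

variable {D : Type u} [CommRing D] {m : ℕ}

theorem exists_of_mem_smul {M : Type*} [AddCommGroup M] [Module D M] (a : Fin m → D)
    (N : Submodule D M) {x : M} (hx : x ∈ Ideal.span (Set.range a) • N) :
    ∃ c : Fin m → M, (∀ l, c l ∈ N) ∧ x = ∑ l, a l • c l := by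
  refine Submodule.smul_induction_on hx ?_ ?_
  · intro r hr n hn
    obtain ⟨c, rfl⟩ := (Submodule.mem_span_range_iff_exists_fun _).mp hr
    refine ⟨fun l => c l • n, fun l => N.smul_mem _ hn, ?_⟩
    rw [Finset.sum_smul]
    refine Finset.sum_congr rfl fun l _ => ?_
    rw [smul_smul, smul_eq_mul, mul_comm]
  · rintro x y ⟨c, hc, rfl⟩ ⟨d, hd, rfl⟩
    refine ⟨fun l => c l + d l, fun l => N.add_mem (hc l) (hd l), ?_⟩
    rw [← Finset.sum_add_distrib]
    exact Finset.sum_congr rfl fun l _ => (smul_add _ _ _).symm

theorem apply_mem_of_mem_smul_top {ι : Type*} (K : Ideal D) {z : ι → D}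
    (hz : z ∈ K • (⊤ : Submodule D (ι → D))) (i : ι) : z i ∈ K := by
  refine Submodule.smul_induction_on hz ?_ ?_
  · intro r hr n _
    exact Ideal.mul_mem_right _ _ hr
  · intro x y hx hy
    exact add_mem hx hy

theorem mem_smul_top_of_apply {ι : Type*} [Fintype ι] (K : Ideal D) {z : ι → D}
    (hz : ∀ i, z i ∈ K) : z ∈ K • (⊤ : Submodule D (ι → D)) := by
  classical
  have h : z = ∑ i, z i • (Pi.single i (1 : D) : ι → D) := by
    funext j
    rw [Finset.sum_apply, Finset.sum_eq_single j]
    · rw [Pi.smul_apply, Pi.single_eq_same, smul_eq_mul, mul_one]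
    · intro k _ hk
      rw [Pi.smul_apply, Pi.single_eq_of_ne (Ne.symm hk), smul_zero]
    · intro hj
      exact absurd (Finset.mem_univ j) hj
  rw [h]
  exact Submodule.sum_mem _ fun i _ => Submodule.smul_mem_smul (hz i) Submodule.mem_top

variable (J : Ideal D) (a : Fin m → D)

/-- the elements of the powers of the extended ideal have coefficients in `J ^ N * I ^ n`. -/
theorem coeff_mem (I : Ideal D) (n : ℕ) {y : reesAlgebra J}
    (hy : y ∈ (I.map (algebraMap D (reesAlgebra J))) ^ n) (N : ℕ) :
    (y : D[X]).coeff N ∈ J ^ N * I ^ n := by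
  rw [← Ideal.map_pow] at hy
  refine Submodule.span_induction (p := fun (y : reesAlgebra J) _ => ∀ N, (y : D[X]).coeff N ∈ J ^ N * I ^ n)
    ?_ ?_ ?_ ?_ hy N
  · rintro _ ⟨s, hs, rfl⟩ N
    have h : ((algebraMap D (reesAlgebra J) s : reesAlgebra J) : D[X]) = C s := rfl
    rw [h, coeff_C]
    split_ifs with h0
    · subst h0
      rw [pow_zero, one_mul]
      exact hs
    · exact zero_mem _
  · intro N
    exact zero_mem _
  · intro x y _ _ hx hy N
    exact add_mem (hx N) (hy N)
  · intro c x _ hx N
    change ((c : D[X]) * (x : D[X])).coeff N ∈ _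
    rw [coeff_mul]
    refine sum_mem fun ij hij => ?_
    rw [Finset.HasAntidiagonal.mem_antidiagonal] at hij
    rw [← hij, pow_add, mul_assoc]
    exact Ideal.mul_mem_mul ((mem_reesAlgebra_iff J _).1 c.2 ij.1) (hx ij.2)

theorem monomial_mem_pow (I : Ideal D) (n N : ℕ) {x : D} (hx : x ∈ J ^ N * I ^ n) :
    ∃ h : monomial N x ∈ reesAlgebra J,
      (⟨monomial N x, h⟩ : reesAlgebra J) ∈ (I.map (algebraMap D (reesAlgebra J))) ^ n := by
  rw [← Ideal.map_pow]
  refine Submodule.mul_induction_on hx ?_ ?_
  · intro r hr s hs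
    have h1 : monomial N r ∈ reesAlgebra J := reesAlgebra.monomial_mem.mpr hr
    have h : monomial N (r * s) ∈ reesAlgebra J :=
      reesAlgebra.monomial_mem.mpr (Ideal.mul_mem_right _ _ hr)
    have h2 : (⟨monomial N (r * s), h⟩ : reesAlgebra J) =
        ⟨monomial N r, h1⟩ * algebraMap D (reesAlgebra J) s := by
      apply Subtype.ext
      change monomial N (r * s) = monomial N r * C s
      rw [monomial_mul_C]
    refine ⟨h, ?_⟩
    rw [h2]
    exact Ideal.mul_mem_left _ _ (Ideal.mem_map_of_mem _ hs)
  · rintro x y ⟨h1, hx⟩ ⟨h2, hy⟩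
    have h : monomial N (x + y) ∈ reesAlgebra J := by
      rw [map_add]
      exact add_mem h1 h2
    have h3 : (⟨monomial N (x + y), h⟩ : reesAlgebra J) = ⟨monomial N x, h1⟩ +
        ⟨monomial N y, h2⟩ := by
      apply Subtype.ext
      change monomial N (x + y) = monomial N x + monomial N y
      rw [map_add]
    refine ⟨h, ?_⟩
    rw [h3]
    exact add_mem hx hy

/-- uniform Artin-Rees for Koszul cycles. -/
theorem exists_uniform [IsNoetherianRing D] : ∃ k, ∀ N n, k ≤ n → ∀ i (z : Finset (Fin m) → D),
    (∀ S, z S ∈ J ^ N * Ideal.span (Set.range a) ^ (n + 1)) →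
    (∀ S : Finset (Fin m), S.card ≠ i → z S = 0) → kd a z = 0 →
    ∃ w : Finset (Fin m) → D, (∀ S, w S ∈ J ^ N * Ideal.span (Set.range a) ^ n) ∧
      (∀ S : Finset (Fin m), S.card ≠ i + 1 → w S = 0) ∧ kd a w = z := by
  classical
  set D1 := reesAlgebra J with hD1
  let a1 : Fin m → D1 := fun l => algebraMap D D1 (a l)
  let Z : Submodule D1 (Finset (Fin m) → D1) :=
    LinearMap.ker (kz (fun l => LinearMap.mulLeft D1 (a1 l)))
  set I := Ideal.span (Set.range a) with hI
  set I1 := I.map (algebraMap D D1) with hI1
  have hI1' : I1 = Ideal.span (Set.range a1) := by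
    rw [hI1, hI, Ideal.map_span, ← Set.range_comp]
    rfl
  obtain ⟨k, hk⟩ := Ideal.exists_pow_inf_eq_pow_smul I1 Z
  refine ⟨k, fun N n hn i z hz hzi hzc => ?_⟩
  choose hz1 hz2 using fun S => monomial_mem_pow J I (n + 1) N (hz S)
  let z1 : Finset (Fin m) → D1 := fun S => ⟨monomial N (z S), hz1 S⟩
  have hz1Z : z1 ∈ Z := by
    rw [LinearMap.mem_ker, kz_eq_kd]
    funext S
    apply Subtype.ext
    have h1 : ((kd a1 z1 S : D1) : D[X]) = kd (fun l => C (a l)) (fun S => monomial N (z S)) S :=
      kd_map (reesAlgebra J).val.toRingHom a1 z1 S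
    rw [h1]
    have h2 : kd (fun l => C (a l)) (fun S => monomial N (z S)) S = monomial N (kd a z S) := by
      unfold kd
      rw [map_sum]
      refine Finset.sum_congr rfl fun l _ => ?_
      rw [map_zsmul, C_mul_monomial]
    rw [h2, hzc]
    exact map_zero _
  have hz1I : z1 ∈ I1 ^ (n + 1) • (⊤ : Submodule D1 (Finset (Fin m) → D1)) :=
    mem_smul_top_of_apply _ fun S => hz2 S
  have h1 : z1 ∈ Ideal.span (Set.range a1) •
      (I1 ^ n • (⊤ : Submodule D1 (Finset (Fin m) → D1)) ⊓ Z) := by
    have h2 : z1 ∈ I1 ^ (n + 1) • (⊤ : Submodule D1 (Finset (Fin m) → D1)) ⊓ Z := ⟨hz1I, hz1Z⟩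
    rw [hk (n + 1) (by omega)] at h2
    rw [← hI1', hk n hn]
    have h3 : n + 1 - k = (n - k) + 1 := by omega
    rwa [h3, pow_succ', Submodule.mul_smul] at h2
  obtain ⟨c, hc, hc'⟩ := exists_of_mem_smul a1 _ h1
  let zz : Fin m → Finset (Fin m) → D := fun l => dp i (fun S => ((c l S : D1) : D[X]).coeff N)
  have hzz : ∀ l S, zz l S ∈ J ^ N * I ^ n := by
    intro l S
    change (if S.card = i then _ else _) ∈ _
    split_ifs
    · exact coeff_mem J I n (apply_mem_of_mem_smul_top _ (hc l).1 S) N
    · exact zero_mem _
  have hzc : ∀ l, kd a (zz l) = 0 := by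
    intro l
    apply kd_dp_of_cycle
    funext S
    have h2 : kd a1 (c l) S = 0 := by
      have h3 : kz (fun l => LinearMap.mulLeft D1 (a1 l)) (c l) = 0 := (hc l).2
      rw [kz_eq_kd] at h3
      rw [h3]
      rfl
    have h4 : ((kd a1 (c l) S : D1) : D[X]) = kd (fun l => C (a l)) (fun S => (c l S : D[X])) S :=
      kd_map (reesAlgebra J).val.toRingHom a1 (c l) S
    have h5 : (kd (fun l => C (a l)) (fun S => (c l S : D[X])) S).coeff N =
        kd a (fun S => ((c l S : D1) : D[X]).coeff N) S := by
      unfold kd
      rw [finsetSum_coeff]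
      refine Finset.sum_congr rfl fun l _ => ?_
      rw [coeff_smul, coeff_C_mul]
    rw [← h5, ← h4, h2]
    exact coeff_zero N
  refine ⟨∑ l, wg l (zz l), ?_, ?_, ?_⟩
  · intro S
    rw [Finset.sum_apply]
    refine sum_mem fun l _ => ?_
    unfold wg
    split_ifs
    · exact zsmul_mem (hzz l _) _
    · exact zero_mem _
  · intro S hS
    rw [Finset.sum_apply]
    refine Finset.sum_eq_zero fun l _ => ?_
    unfold wg
    split_ifs with h
    · have h2 : (S.erase l).card ≠ i := by
        have := Finset.card_erase_add_one h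
        omega
      change _ • (dp i _ (S.erase l)) = _
      rw [dp_ne _ h2, smul_zero]
    · rfl
  · rw [kd_sum]
    funext S
    rw [Finset.sum_apply]
    have h2 : ∀ l, kd a (wg l (zz l)) S = a l * zz l S := fun l => by
      rw [kd_wg a l (zz l) (hzc l)]
    rw [Finset.sum_congr rfl fun l _ => h2 l]
    by_cases h : S.card = i
    · have h3 : ∀ l, zz l S = ((c l S : D1) : D[X]).coeff N := fun l => dp_eq _ h
      rw [Finset.sum_congr rfl fun l _ => by rw [h3 l]]
      have h4 := congrArg (fun f : Finset (Fin m) → D1 => ((f S : D1) : D[X]).coeff N) hc'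
      have h5 : (((∑ l, a1 l • c l) S : D1) : D[X]).coeff N =
          ∑ l, a l * ((c l S : D1) : D[X]).coeff N := by
        have h6 : (((∑ l, a1 l • c l) S : D1) : D[X]) = ∑ l, C (a l) * (c l S : D[X]) := by
          rw [Finset.sum_apply]
          exact map_sum (reesAlgebra J).val.toRingHom (fun l => a1 l * c l S) Finset.univ
        rw [h6, finsetSum_coeff]
        exact Finset.sum_congr rfl fun l _ => by rw [coeff_C_mul]
      rw [← h5]
      refine h4.symm.trans ?_
      change (monomial N (z S)).coeff N = z S
      rw [coeff_monomial, if_pos rfl]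
    · rw [hzi S h]
      refine Finset.sum_eq_zero fun l _ => ?_
      change a l * dp i _ S = 0
      rw [dp_ne _ h, mul_zero]

/-- exactness for the first powers. -/
theorem exists_ex_one [IsNoetherianRing D] : ∃ k, ∀ N σ, k ≤ σ →
    Ex a (fun S => J ^ N * Ideal.span (Set.range a) ^ (σ - S.card)) := by
  obtain ⟨k, hk⟩ := exists_uniform J a
  refine ⟨k + m + 1, fun N σ hσ v hv hz => ?_⟩
  have h1 : ∀ i ∈ Finset.range (m + 1), ∃ w : Finset (Fin m) → D,
      (∀ S, w S ∈ J ^ N * Ideal.span (Set.range a) ^ (σ - i - 1)) ∧
      (∀ S : Finset (Fin m), S.card ≠ i + 1 → w S = 0) ∧ kd a w = dp i v := by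
    intro i hi
    rw [Finset.mem_range] at hi
    refine hk N (σ - i - 1) (by omega) i (dp i v) ?_ ?_ (kd_dp_of_cycle a i v hz)
    · intro S
      by_cases h : S.card = i
      · rw [dp_eq _ h]
        have h2 := hv S
        simp only [h] at h2
        have h3 : σ - i - 1 + 1 = σ - i := by omega
        rwa [h3]
      · rw [dp_ne _ h]
        exact zero_mem _
    · intro S h
      exact dp_ne _ h
  choose! w hw1 hw2 hw3 using h1
  refine ⟨∑ i ∈ Finset.range (m + 1), w i, ?_, ?_⟩
  · intro S
    rw [Finset.sum_apply]
    refine sum_mem fun i hi => ?_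
    by_cases h : S.card = i + 1
    · simp only [h]
      have h3 : σ - (i + 1) = σ - i - 1 := by omega
      rw [h3]
      exact hw1 i hi S
    · rw [hw2 i hi S h]
      exact zero_mem _
  · rw [kd_sum, Finset.sum_congr rfl hw3, sum_dp]

/-- exactness for powers. -/
theorem ex_pow {K : ℕ} (N : ℕ)
    (h1 : ∀ σ, K ≤ σ → Ex a (fun S => J ^ N * Ideal.span (Set.range a) ^ (σ - S.card)))
    (q : ℕ) (hq : 1 ≤ q) (A : Finset (Fin m)) : ∀ σ, K + A.card * (q - 1) ≤ σ →
    Ex (fun l => a l ^ (if l ∈ A then q else 1)) (fun S => J ^ N * Ideal.span (Set.range a) ^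
      (σ - ∑ j ∈ S, if j ∈ A then q else 1)) := by
  classical
  induction A using Finset.induction_on with
  | empty =>
    intro σ hσ
    simpa using h1 σ (by simpa using hσ)
  | insert l A hl ih =>
    -- induction on the exponent of `a l`
    have key : ∀ n, 1 ≤ n → ∀ σ, K + A.card * (q - 1) + (n - 1) ≤ σ →
        Ex (fun k => a k ^ (if k = l then n else if k ∈ A then q else 1))
          (fun S => J ^ N * Ideal.span (Set.range a) ^
            (σ - ∑ j ∈ S, if j = l then n else if j ∈ A then q else 1)) := by
      intro n hn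
      induction n, hn using Nat.le_induction with
      | base =>
        intro σ hσ
        have h2 := ih σ (by omega)
        have h3 : ∀ k : Fin m, (if k = l then 1 else if k ∈ A then q else 1) =
            (if k ∈ A then q else 1) := by
          intro k
          by_cases hk : k = l
          · subst hk; simp [hl]
          · simp [hk]
        simp only [h3]
        exact h2
      | succ n hn ihn =>
        intro σ hσ
        have hbase : Ex (fun k => a k ^ (if k = l then 1 else if k ∈ A then q else 1))
            (fun S => J ^ N * Ideal.span (Set.range a) ^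
              (σ - ∑ j ∈ S, if j = l then 1 else if j ∈ A then q else 1)) := by
          have h2 := ih σ (by omega)
          have h3 : ∀ k : Fin m, (if k = l then 1 else if k ∈ A then q else 1) =
              (if k ∈ A then q else 1) := by
            intro k
            by_cases hk : k = l
            · subst hk; simp [hl]
            · simp [hk]
          simp only [h3]
          exact h2
        have hprev := ihn (σ - 1) (by omega)
        -- sums over `S` and `insert l S`
        have hs : ∀ (r : ℕ) (S : Finset (Fin m)), l ∉ S →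
            (∑ j ∈ S, if j = l then r else if j ∈ A then q else 1) =
              ∑ j ∈ S, if j ∈ A then q else 1 := by
          intro r S hS
          refine Finset.sum_congr rfl fun j hj => ?_
          rw [if_neg]
          rintro rfl
          exact hS hj
        have hs' : ∀ (r : ℕ) (S : Finset (Fin m)), l ∉ S →
            (∑ j ∈ insert l S, if j = l then r else if j ∈ A then q else 1) =
              r + ∑ j ∈ S, if j ∈ A then q else 1 := by
          intro r S hS
          rw [Finset.sum_insert hS, hs r S hS, if_pos rfl]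
        have hal : a l ∈ Ideal.span (Set.range a) := Ideal.subset_span ⟨l, rfl⟩
        have hmul : ∀ (r t : ℕ) (x : D), x ∈ J ^ N * Ideal.span (Set.range a) ^ (t - r) →
            a l ^ r * x ∈ J ^ N * Ideal.span (Set.range a) ^ t := by
          intro r t x hx
          have h2 : a l ^ r * x ∈ Ideal.span (Set.range a) ^ r *
              (J ^ N * Ideal.span (Set.range a) ^ (t - r)) :=
            Ideal.mul_mem_mul (Ideal.pow_mem_pow hal r) hx
          have h3 : Ideal.span (Set.range a) ^ r * (J ^ N * Ideal.span (Set.range a) ^ (t - r)) =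
              J ^ N * Ideal.span (Set.range a) ^ (r + (t - r)) := by
            rw [pow_add]; ring
          rw [h3] at h2
          exact Ideal.mul_mono_right (Ideal.pow_le_pow_right (by omega)) h2
        refine Ex.cone l (b := fun k => a k ^ (if k = l then 1 else if k ∈ A then q else 1))
          (b'' := fun k => a k ^ (if k = l then n else if k ∈ A then q else 1)) ?_ ?_ ?_
          (G := fun S => J ^ N * Ideal.span (Set.range a) ^
              (σ - ∑ j ∈ S, if j = l then 1 else if j ∈ A then q else 1))
          (H := fun S => J ^ N * Ideal.span (Set.range a) ^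
              (σ - 1 - ∑ j ∈ S, if j = l then n else if j ∈ A then q else 1))
          ?_ ?_ ?_ ?_ ?_ hbase hprev
        · intro k hk
          simp only [if_neg hk]
        · intro k hk
          simp only [if_neg hk]
        · simp only [if_pos]
          rw [pow_one, pow_succ']
        · intro S hS x hx
          simp only [if_pos]
          simp only [hs 1 S hS]
          simp only [hs' 1 S hS] at hx
          refine hmul 1 _ x ?_
          have h2 : σ - (∑ j ∈ S, if j ∈ A then q else 1) - 1 =
            σ - (1 + ∑ j ∈ S, if j ∈ A then q else 1) := by omega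
          rwa [h2]
        · intro S hS x hx
          simp only [if_pos]
          simp only [hs n S hS]
          simp only [hs' n S hS] at hx
          refine hmul n _ x ?_
          have h2 : σ - 1 - (∑ j ∈ S, if j ∈ A then q else 1) - n =
            σ - 1 - (n + ∑ j ∈ S, if j ∈ A then q else 1) := by omega
          rwa [h2]
        · intro S hS
          simp only [hs (n + 1) S hS, hs 1 S hS]
        · intro S hS
          simp only [hs' (n + 1) S hS, hs' n S hS]
          congr 2
          omega
        · intro S hS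
          simp only [hs' 1 S hS, hs n S hS]
          congr 2
          omega
    intro σ hσ
    have h2 := key q hq σ (by
      rw [Finset.card_insert_of_notMem hl] at hσ
      have : (A.card + 1) * (q - 1) = A.card * (q - 1) + (q - 1) := by ring
      omega)
    have h3 : ∀ k : Fin m, (if k ∈ insert l A then q else 1) =
        (if k = l then q else if k ∈ A then q else 1) := by
      intro k
      by_cases hk : k = l
      · subst hk; simp
      · simp [hk]
    simp only [h3]
    exact h2

/-- the main finite level statement. -/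
theorem exists_ex_pow [IsNoetherianRing D] : ∃ K, ∀ N q σ, 1 ≤ q → K + m * (q - 1) ≤ σ →
    Ex (fun l => a l ^ q) (fun S => J ^ N * Ideal.span (Set.range a) ^ (σ - S.card * q)) := by
  obtain ⟨K, hK⟩ := exists_ex_one J a
  refine ⟨K, fun N q σ hq hσ => ?_⟩
  have h := ex_pow J a N (fun σ' h' => hK N σ' h') q hq Finset.univ σ (by simpa using hσ)
  simpa using h

end Vale.Agent.P177.PI
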