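import Vale.Agent.P177.Perf.WJ2

/-!
# Relations inside a perfect ideal (P177)

`C` perfect, `t` regular, `J` a perfect ideal.  The key lemma of P202 (`T3`) inside `W(J)`, and
the relation lemma: if `x ∈ W(J)` is zero in `W(C)/(p - [t], p^(I+1))` and `g ∈ J`, then
`[g^θ] x` is zero in `W(J)/(p - [t], p^n) W(J)` for `n ≤ (I+1) θ`.
-/

namespace Vale.Agent.P177.WJR

open WittVector Vale.Agent.P177.WJ

variable {p : ℕ} [hp : Fact (Nat.Prime p)] {C : Type*} [CommRing C] [CharP C p] [PerfectRing C p]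

theorem rt_pow_mul_self (n : ℕ) (s z : C) : rt p n (s ^ p ^ n * z) = s * rt p n z :=
  rt_unique n (by rw [mul_pow, rt_pow])

theorem isPerf_smul {J : Ideal C} (hJ : IsPerf p J) (s : C) : IsPerf p (Ideal.span {s} * J) := by
  intro a ha b hb i hi
  rw [Ideal.mem_span_singleton_mul] at ha hb ⊢
  obtain ⟨a', ha', rfl⟩ := ha
  obtain ⟨b', hb', rfl⟩ := hb
  refine ⟨_, hJ a' ha' b' hb' i hi, ?_⟩
  have h1 : (s * a') ^ i * (s * b') ^ (p - i) = s ^ p ^ 1 * (a' ^ i * b' ^ (p - i)) := by
    obtain ⟨r, hr⟩ := Nat.exists_eq_add_of_le hi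
    have h2 : p - i = r := by omega
    rw [h2, pow_one]
    calc (s * a') ^ i * (s * b') ^ r = s ^ (i + r) * (a' ^ i * b' ^ r) := by ring
      _ = s ^ p * (a' ^ i * b' ^ r) := by rw [← hr]
  rw [h1, rt_pow_mul_self]

theorem exists_approx {K : Ideal C} (hK : IsPerf p K) {y : WittVector p C} {j : ℕ}
    (h : ∀ i ≤ j, dig y i ∈ K) : ∃ y₁ ∈ WJ hK, (p : WittVector p C) ^ (j + 1) ∣ y - y₁ :=
  ⟨_, T_le_WJ hK (sum_mem fun i hi => mem_T K i (h i (by
    have := Finset.mem_range.1 hi; omega))), exists_digits y (j + 1)⟩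

theorem dig_add_mem {K : Ideal C} (hK : IsPerf p K) {y z : WittVector p C} {j : ℕ}
    (hy : ∀ i ≤ j, dig y i ∈ K) (hz : ∀ i ≤ j, dig z i ∈ K) : dig (y + z) j ∈ K := by
  obtain ⟨y₁, hy₁, h1⟩ := exists_approx hK hy
  obtain ⟨z₁, hz₁, h2⟩ := exists_approx hK hz
  have h3 : (p : WittVector p C) ^ (j + 1) ∣ (y + z) - (y₁ + z₁) := by
    have : (y + z) - (y₁ + z₁) = (y - y₁) + (z - z₁) := by ring
    rw [this]; exact dvd_add h1 h2
  rw [dig_congr h3 (Nat.lt_succ_self j)]
  exact (WJ hK).add_mem hy₁ hz₁ j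

theorem dig_p_mul (y : WittVector p C) (n : ℕ) : dig ((p : WittVector p C) * y) (n + 1) = dig y n := by
  have h1 := dig_succ (0 : C) y n
  rwa [teichmuller_zero, zero_add] at h1

/-- the multiplier of the key lemma. -/
noncomputable def ka (p : ℕ) [Fact (Nat.Prime p)] {C : Type*} [CommRing C] (t : C) (I : ℕ) :
    WittVector p C :=
  -(∑ j ∈ Finset.range (I + 1), (p : WittVector p C) ^ j * teichmuller p t ^ (I - j))

omit [CharP C p] [PerfectRing C p] in
theorem ka_mul (t : C) (I : ℕ) : ((p : WittVector p C) - teichmuller p t) * ka p t I =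
    teichmuller p t ^ (I + 1) - (p : WittVector p C) ^ (I + 1) := by
  have hgeom : (∑ j ∈ Finset.range (I + 1), (p : WittVector p C) ^ j *
      teichmuller p t ^ (I - j)) * ((p : WittVector p C) - teichmuller p t) =
      (p : WittVector p C) ^ (I + 1) - teichmuller p t ^ (I + 1) := by
    have := Commute.geom_sum₂_mul (Commute.all (p : WittVector p C) (teichmuller p t)) (I + 1)
    simpa using this
  have : ((p : WittVector p C) - teichmuller p t) * ka p t I =
      -((∑ j ∈ Finset.range (I + 1), (p : WittVector p C) ^ j *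
      teichmuller p t ^ (I - j)) * ((p : WittVector p C) - teichmuller p t)) := by
    rw [ka]; ring
  rw [this, hgeom]; ring

theorem mem_smul_of_le {J : Ideal C} {t : C} {m n : ℕ} (h : m ≤ n) {x : C}
    (hx : x ∈ Ideal.span {t ^ n} * J) : x ∈ Ideal.span {t ^ m} * J := by
  rw [Ideal.mem_span_singleton_mul] at hx ⊢
  obtain ⟨z, hz, rfl⟩ := hx
  obtain ⟨d, rfl⟩ := Nat.exists_eq_add_of_le h
  exact ⟨t ^ d * z, J.mul_mem_left _ hz, by rw [pow_add]; ring⟩

theorem pow_mul_mem_smul {J : Ideal C} {t : C} {m n k : ℕ} (h : m ≤ k + n) {x : C}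
    (hx : x ∈ Ideal.span {t ^ n} * J) : t ^ k * x ∈ Ideal.span {t ^ m} * J := by
  rw [Ideal.mem_span_singleton_mul] at hx
  obtain ⟨z, hz, rfl⟩ := hx
  refine mem_smul_of_le h ?_
  rw [Ideal.mem_span_singleton_mul]
  exact ⟨z, hz, by rw [pow_add]; ring⟩

/-- KEY LEMMA (`T3`) inside a perfect ideal. -/
theorem key_J {t : C} (ht : t ∈ nonZeroDivisors C) {J : Ideal C} (hJ : IsPerf p J)
    {x : WittVector p C} (hx : x ∈ WJ hJ) (I n : ℕ) (hn : n ≤ I + 1)
    (h0 : dig (ka p t I * x) I ∈ Ideal.span {t ^ n} * J) :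
    ∃ v ∈ WJ hJ, ∃ w ∈ WJ hJ, x = ((p : WittVector p C) - teichmuller p t) * v +
      (p : WittVector p C) ^ n * w := by
  set y : WittVector p C := ka p t I * x with hydef
  have hyJ : y ∈ WJ hJ := (WJ hJ).mul_mem_left _ hx
  have hy : (p : WittVector p C) * y = teichmuller p t * y + teichmuller p (t ^ (I + 1)) * x -
      (p : WittVector p C) ^ (I + 1) * x := by
    have h1 : ((p : WittVector p C) - teichmuller p t) * y =
        (teichmuller p t ^ (I + 1) - (p : WittVector p C) ^ (I + 1)) * x := by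
      rw [hydef, ← mul_assoc, ka_mul]
    rw [map_pow]
    linear_combination h1
  have hP : ∀ m ≤ I + 1, ∀ j ≤ I, dig y j ∈ Ideal.span {t ^ (min m (n + I - j))} * J := by
    intro m
    induction m with
    | zero =>
      intro _ j _
      rw [Nat.zero_min, pow_zero, Ideal.span_singleton_one, Ideal.top_mul]
      exact hyJ j
    | succ m ih =>
      intro hm j hj
      have ih' := ih (by omega)
      rcases Nat.lt_or_ge j I with hjI | hjI
      · -- use the digit `j + 1` of `p y`
        have hK := isPerf_smul (p := p) hJ (t ^ (min (m + 1) (n + I - j)))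
        have h1 : dig (teichmuller p t * y + teichmuller p (t ^ (I + 1)) * x) (j + 1) ∈
            Ideal.span {t ^ (min (m + 1) (n + I - j))} * J := by
          refine dig_add_mem hK ?_ ?_
          · intro i hi
            rw [dig_teichmuller_mul]
            have h2 := pow_mul_mem_smul (k := 1) (m := min (m + 1) (n + I - j))
              (by omega) (ih' i (by omega))
            rwa [pow_one] at h2
          · intro i _
            rw [dig_teichmuller_mul]
            have h3 : dig x i ∈ Ideal.span {t ^ 0} * J := by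
              rw [pow_zero, Ideal.span_singleton_one, Ideal.top_mul]
              exact hx i
            exact pow_mul_mem_smul (by omega) h3
        have h2 : dig y j = dig (teichmuller p t * y + teichmuller p (t ^ (I + 1)) * x) (j + 1) := by
          rw [← dig_p_mul y j]
          refine dig_congr (N := I + 1) ?_ (by omega)
          rw [hy]
          exact ⟨-x, by ring⟩
        rw [h2]
        exact h1
      · obtain rfl : j = I := by omega
        exact mem_smul_of_le (by omega) h0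
  have hfin : ∀ j, ∃ d ∈ J, j < n → dig y j = t ^ (I + 1) * d := by
    intro j
    by_cases hj : j < n
    · have h1 := hP (I + 1) le_rfl j (by omega)
      have h2 : min (I + 1) (n + I - j) = I + 1 := by omega
      rw [h2, Ideal.mem_span_singleton_mul] at h1
      obtain ⟨d, hd, h3⟩ := h1
      exact ⟨d, hd, fun _ => h3.symm⟩
    · exact ⟨0, zero_mem _, fun h => absurd h hj⟩
  choose d hdJ hd using hfin
  set v : WittVector p C := ofDig (p := p) d with hv
  have hvJ : v ∈ WJ hJ := ofDig_mem hJ hdJ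
  have h1 : (p : WittVector p C) ^ n ∣ y - teichmuller p (t ^ (I + 1)) * v := by
    rw [_root_.P202.Mix.dvd_sub_iff]
    intro i hi
    rw [← dig_pow y i, hd i hi, ← dig_pow _ i, dig_teichmuller_mul, hv, dig_ofDig]
  have h2 : (p : WittVector p C) ^ n ∣ teichmuller p (t ^ (I + 1)) *
      (x - ((p : WittVector p C) - teichmuller p t) * v) := by
    have h3 : teichmuller p (t ^ (I + 1)) * (x - ((p : WittVector p C) - teichmuller p t) * v) =
        ((p : WittVector p C) - teichmuller p t) * (y - teichmuller p (t ^ (I + 1)) * v) +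
        (p : WittVector p C) ^ n * ((p : WittVector p C) ^ (I + 1 - n) * x) := by
      have h4 : (p : WittVector p C) ^ n * ((p : WittVector p C) ^ (I + 1 - n) * x) =
          (p : WittVector p C) ^ (I + 1) * x := by
        rw [← mul_assoc, ← pow_add]; congr 2; omega
      rw [h4]
      linear_combination -hy
    rw [h3]
    exact dvd_add (Dvd.dvd.mul_left h1 _) (dvd_mul_right _ _)
  have h3 : (p : WittVector p C) ^ n ∣ (x - ((p : WittVector p C) - teichmuller p t) * v) - 0 := by
    rw [_root_.P202.Mix.dvd_sub_iff]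
    intro i hi
    have h4 : (p : WittVector p C) ^ n ∣ teichmuller p (t ^ (I + 1)) *
      (x - ((p : WittVector p C) - teichmuller p t) * v) - 0 := by rw [sub_zero]; exact h2
    have h5 := _root_.P202.Mix.coeff_eq_of_dvd_sub h4 hi
    rw [_root_.P202.Mix.teichmuller_mul_coeff, zero_coeff] at h5
    rw [zero_coeff]
    have ht' : (t ^ (I + 1)) ^ p ^ i ∈ nonZeroDivisors C := pow_mem (pow_mem ht _) _
    exact (mul_left_mem_nonZeroDivisors_eq_zero_iff ht').1 h5
  obtain ⟨w, hw⟩ := h3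
  rw [sub_zero] at hw
  refine ⟨v, hvJ, w, (p_pow_mul_mem hJ n).1 ?_, by rw [← hw]; ring⟩
  rw [← hw]
  exact (WJ hJ).sub_mem hx ((WJ hJ).mul_mem_left _ hvJ)

/-- the invariant of an element of `(p - [t], p^(I+1))`. -/
theorem dig_ka_mul (t : C) (I : ℕ) {x v w : WittVector p C}
    (h : x = ((p : WittVector p C) - teichmuller p t) * v + (p : WittVector p C) ^ (I + 1) * w) :
    dig (ka p t I * x) I = t ^ (I + 1) * dig v I := by
  have h1 : (p : WittVector p C) ^ (I + 1) ∣ ka p t I * x - teichmuller p (t ^ (I + 1)) * v := by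
    refine ⟨ka p t I * w - v, ?_⟩
    have h2 := ka_mul (p := p) t I
    rw [h, map_pow]
    linear_combination v * h2
  rw [dig_congr h1 (Nat.lt_succ_self I), dig_teichmuller_mul]

/-- the mean trick. -/
theorem mean_mem {t : C} {J : Ideal C} (hJ : IsPerf p J) {g a' : C} (hg : g ∈ J) {I n i k : ℕ}
    (ha : t ^ (I + 1) * a' ∈ J) (hi : i ≤ p ^ k) (hn : n * p ^ k ≤ (I + 1) * i) :
    rt p k (g ^ i) * (t ^ (I + 1) * a') ∈ Ideal.span {t ^ n} * J := by
  have h1 := hJ.mean (J.mul_mem_right a' hg) ha k i hi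
  rw [Ideal.mem_span_singleton_mul]
  refine ⟨rt p k (t ^ ((I + 1) * i - n * p ^ k)) * rt p k ((g * a') ^ i *
    (t ^ (I + 1) * a') ^ (p ^ k - i)), J.mul_mem_left _ h1, ?_⟩
  rw [← rt_mul, ← rt_pow_mul_self (p := p)]
  symm
  apply (rt_unique (p := p) k _).symm
  rw [mul_pow, rt_pow]
  obtain ⟨r, hr⟩ := Nat.exists_eq_add_of_le hi
  obtain ⟨s, hs⟩ := Nat.exists_eq_add_of_le hn
  have h2 : p ^ k - i = r := by omega
  have h3 : (I + 1) * i - n * p ^ k = s := by omega
  rw [h2, h3]
  have h4 : (t ^ n) ^ p ^ k * t ^ s = (t ^ (I + 1)) ^ i := by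
    rw [← pow_mul, ← pow_mul, ← pow_add, hs]
  calc g ^ i * (t ^ (I + 1) * a') ^ p ^ k = g ^ i * (t ^ (I + 1) * a') ^ (i + r) := by rw [← hr]
    _ = (t ^ (I + 1)) ^ i * ((g * a') ^ i * (t ^ (I + 1) * a') ^ r) := by ring
    _ = (t ^ n) ^ p ^ k * (t ^ s * ((g * a') ^ i * (t ^ (I + 1) * a') ^ r)) := by
      rw [← h4]; ring

/-- RELATION LEMMA: if `x ∈ W(J)` vanishes in `W(C)/(p - [t], p^(I+1))` and `g ∈ J`, then
`[g^(i/p^k)] x` vanishes in `W(J)/(p - [t], p^n)W(J)` for `n ≤ (I+1) i/p^k`. -/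
theorem rel {t : C} (ht : t ∈ nonZeroDivisors C) {J : Ideal C} (hJ : IsPerf p J)
    {g : C} (hg : g ∈ J) {x v w : WittVector p C} (hx : x ∈ WJ hJ) {I n i k : ℕ}
    (h : x = ((p : WittVector p C) - teichmuller p t) * v + (p : WittVector p C) ^ (I + 1) * w)
    (hi : i ≤ p ^ k) (hn : n * p ^ k ≤ (I + 1) * i) :
    ∃ v' ∈ WJ hJ, ∃ w' ∈ WJ hJ, teichmuller p (rt p k (g ^ i)) * x =
      ((p : WittVector p C) - teichmuller p t) * v' + (p : WittVector p C) ^ n * w' := by
  have hn' : n ≤ I + 1 := by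
    have h1 : n * p ^ k ≤ (I + 1) * p ^ k := hn.trans (Nat.mul_le_mul_left _ hi)
    exact Nat.le_of_mul_le_mul_right h1 (Nat.pow_pos hp.out.pos)
  refine key_J ht hJ ((WJ hJ).mul_mem_left _ hx) I n hn' ?_
  have h1 : ka p t I * (teichmuller p (rt p k (g ^ i)) * x) =
      teichmuller p (rt p k (g ^ i)) * (ka p t I * x) := by ring
  rw [h1, dig_teichmuller_mul, dig_ka_mul t I h]
  refine mean_mem hJ hg ?_ hi hn
  rw [← dig_ka_mul t I h]
  exact (WJ hJ).mul_mem_left _ hx I

/-- the case `θ = 1/p^k`. -/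
theorem rel_one {t : C} (ht : t ∈ nonZeroDivisors C) {J : Ideal C} (hJ : IsPerf p J)
    {g : C} (hg : g ∈ J) {x v w : WittVector p C} (hx : x ∈ WJ hJ) {I n k : ℕ}
    (h : x = ((p : WittVector p C) - teichmuller p t) * v + (p : WittVector p C) ^ (I + 1) * w)
    (hn : n * p ^ k ≤ I + 1) :
    ∃ v' ∈ WJ hJ, ∃ w' ∈ WJ hJ, teichmuller p (rt p k g) * x =
      ((p : WittVector p C) - teichmuller p t) * v' + (p : WittVector p C) ^ n * w' := by
  have h1 := rel ht hJ hg hx (i := 1) (k := k) (n := n) h (Nat.one_le_pow _ _ hp.out.pos)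
    (by rw [mul_one]; exact hn)
  rwa [pow_one] at h1

end Vale.Agent.P177.WJR
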